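/-
Row 324, module G, part A (the adapted chart: statement C1 of `Geo/IfaceC.lean`).  Architect: helper427.  SHARED DEFINITIONS (nothing to prove here).

Ambient indices `Fin (3 + (q+2))`: `0,1,2` = first factor `R^3`; `3 = iy q` = height; `4 .. q+4` = the remaining `q+1` coordinates of the second factor.
Parameter indices `Fin (q+3)`: `0` = `r`; `1..q` = `z` (class `cZ`); `q+1, q+2` = `w` (class `cW`).
Standard chart  `acChi q (r,z,w) = ( t_W, s_W w ;  r ;  ρ t_Z, ρ s_Z z )`,   `ρ = sqrt (1 - r^2)`,  `s = dgS c = 1/(1+n/4)`, `n = dgN c = |z|^2`, `t = dgT c = s (1 - n/4)`: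
 inverse stereographic projections centred at the poles `e_0` (index `ac0`) of `S^2` and `e_4` (index `ac4`) of `S^q`.
`acEm q : Fin (q+3) → Fin (3+(q+2))`: `0 ↦ 3`, `a ↦ a+4` (`1 ≤ a ≤ q`), `q+b ↦ b` (`b = 1,2`); the ambient indices not hit are the two poles `0` and `4`.
Chain: `Sph*` (generic sphere chart identities) → `Idx` (index bookkeeping) → `Jac, MetU, MetV, Met` (coordMetric = adG) → `Img, Kap*` (image, explicit inverse `acKap`) → `Param0` (IsLocalParam) → `Refl, Iso, Transf` (move the base point by a block isometry) → `Main`.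
-/
import Claimed.Agent.R324.Geo.D.Defs

set_option autoImplicit false

namespace Claimed.Agent.R324

open Set Claims.C0510
open scoped ContDiff

/-- squared norm of the coordinates of class `c`. -/
noncomputable def dgN {d : ℕ} (c : Fin d → Prop) [DecidablePred c] (x : EuclideanSpace ℝ (Fin d)) : ℝ :=
  ∑ j : Fin d with c j, x j ^ 2

/-- pole coordinate of the inverse stereographic projection. -/
noncomputable def dgT {d : ℕ} (c : Fin d → Prop) [DecidablePred c] (x : EuclideanSpace ℝ (Fin d)) : ℝ :=
  dgS c x * (1 - dgN c x / 4)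

/-- class of the `z` coordinates. -/
def cZ (q : ℕ) (j : Fin (q + 3)) : Prop := 1 ≤ j.val ∧ j.val ≤ q

/-- class of the `w` coordinates. -/
def cW (q : ℕ) (j : Fin (q + 3)) : Prop := q < j.val

instance cZ_dec (q : ℕ) : DecidablePred (cZ q) := fun j => by unfold cZ; infer_instance

instance cW_dec (q : ℕ) : DecidablePred (cW q) := fun j => by unfold cW; infer_instance

/-- embedding of the parameter indices into the ambient indices. -/
def acEm (q : ℕ) (j : Fin (q + 3)) : Fin (3 + (q + 2)) :=
  ⟨if j.val = 0 then 3 else if j.val ≤ q then j.val + 4 else j.val - q, by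
    have := j.isLt
    split_ifs <;> omega⟩

/-- left inverse of `acEm` (junk at the two poles). -/
def acPm (q : ℕ) (i : Fin (3 + (q + 2))) : Fin (q + 3) :=
  ⟨if i.val < 3 then q + i.val else i.val - 4, by
    have := i.isLt
    split_ifs <;> omega⟩

/-- the pole index of `S^2`. -/
def ac0 (q : ℕ) : Fin (3 + (q + 2)) := ⟨0, by omega⟩

/-- the pole index of `S^q`. -/
def ac4 (q : ℕ) : Fin (3 + (q + 2)) := ⟨4, by omega⟩

/-- `ρ(r) = sqrt (1 - r^2)`. -/
noncomputable def acRho (r : ℝ) : ℝ := Real.sqrt (1 - r ^ 2)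

/-- coordinates of the standard chart. -/
noncomputable def acCo (q : ℕ) (x : Ed q) (i : Fin (3 + (q + 2))) : ℝ :=
  if i.val = 0 then dgT (cW q) x
  else if i.val < 3 then dgS (cW q) x * x (acPm q i)
  else if i.val = 3 then x 0
  else if i.val = 4 then acRho (x 0) * dgT (cZ q) x
  else acRho (x 0) * (dgS (cZ q) x * x (acPm q i))

/-- the standard adapted chart. -/
noncomputable def acChi (q : ℕ) (x : Ed q) : EN q := WithLp.toLp 2 (acCo q x)

/-- the explicit inverse of the standard chart. -/
noncomputable def acKap (q : ℕ) (X : EN q) : Ed q := WithLp.toLp 2 fun j =>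
  if j.val = 0 then X (iy q)
  else if j.val ≤ q then 2 * X (acEm q j) / (acRho (X (iy q)) + X (ac4 q))
  else 2 * X (acEm q j) / (1 + X (ac0 q))

/-- the open set of the ambient space cutting out the image of the standard chart. -/
def acV (q : ℕ) : Set (EN q) :=
  {X | X (iy q) ∈ Ioo (-1 : ℝ) 1 ∧ 0 < 1 + X (ac0 q) ∧ 0 < acRho (X (iy q)) + X (ac4 q)}

/-- the standard base point of height `y`: `(1,0,0; y; sqrt(1-y^2), 0, .., 0)`. -/
noncomputable def acBase (q : ℕ) (y : ℝ) : EN q :=
  EuclideanSpace.single (ac0 q) 1 + EuclideanSpace.single (iy q) y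
    + EuclideanSpace.single (ac4 q) (acRho y)

end Claimed.Agent.R324
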