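/-
Row 324, module G, part A, leaf Rho (architect helper427): the function `acRho r = sqrt (1 - r^2)` on `(-1,1)`.
PROOFS.  `0 < 1 - r^2` on `Ioo (-1) 1` by `nlinarith [hr.1, hr.2]`.  `Real.sqrt_pos`, `Real.sq_sqrt`.
 * smooth: `ContDiffOn.sqrt` (`(contDiffOn_const.sub (contDiffOn_id.pow 2)).sqrt (fun r hr => ne_of_gt ..)`).
 * derivative: `((hasDerivAt_id r).pow 2 |>.const_sub 1).sqrt (ne_of_gt ..)` then `.deriv`, `field_simp`/`ring` (value `(-(2 r)) / (2 sqrt(1-r^2))`).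
 * `acRho_mul_pdiff`: `dgPd_mul`, `dgPd_comp` (outer `acRho`, inner `fun w => w 0`), `dgPd_coord`, `dgPd_coord_diff` (Geo/D/Pd.lean); `x ∈ adW q` means `x 0 ∈ Ioo (-1) 1` (`Iff.rfl`).
-/
import Claimed.Agent.R324.Geo.A.Defs
import Claimed.Agent.R324.Geo.D.Pd

set_option autoImplicit false

namespace Claimed.Agent.R324

open Set Claims.C0510
open scoped ContDiff

theorem rho_one_sub_sq_pos {r : ℝ} (hr : r ∈ Ioo (-1 : ℝ) 1) : 0 < 1 - r ^ 2 := by
  nlinarith [hr.1, hr.2]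

theorem acRho_pos {r : ℝ} (hr : r ∈ Ioo (-1 : ℝ) 1) : 0 < acRho r := by
  exact Real.sqrt_pos.2 (rho_one_sub_sq_pos hr)

theorem acRho_sq {r : ℝ} (hr : r ∈ Ioo (-1 : ℝ) 1) : acRho r ^ 2 = 1 - r ^ 2 := by
  exact Real.sq_sqrt (rho_one_sub_sq_pos hr).le

theorem acRho_continuous : Continuous acRho := by
  unfold acRho
  exact Real.continuous_sqrt.comp (continuous_const.sub (continuous_id.pow 2))

theorem acRho_contDiffOn : ContDiffOn ℝ ∞ acRho (Ioo (-1 : ℝ) 1) := by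
  unfold acRho
  exact (contDiffOn_const.sub (contDiffOn_id.pow 2)).sqrt (fun r hr => (rho_one_sub_sq_pos hr).ne')

theorem acRho_differentiableAt {r : ℝ} (hr : r ∈ Ioo (-1 : ℝ) 1) : DifferentiableAt ℝ acRho r := by
  exact (acRho_contDiffOn.contDiffAt (isOpen_Ioo.mem_nhds hr)).differentiableAt (by simp)

theorem acRho_deriv {r : ℝ} (hr : r ∈ Ioo (-1 : ℝ) 1) : deriv acRho r = -r / acRho r := by
  have h1 : HasDerivAt (fun r : ℝ => 1 - r ^ 2) (-(2 * r)) r := by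
    have h2 := ((hasDerivAt_id r).pow 2).const_sub 1
    simpa using h2
  have h3 := h1.sqrt (rho_one_sub_sq_pos hr).ne'
  have h4 : deriv acRho r = -(2 * r) / (2 * Real.sqrt (1 - r ^ 2)) := h3.deriv
  rw [h4]
  have hp := acRho_pos hr
  unfold acRho at hp ⊢
  field_simp

theorem acRho_mul_pdiff (q : ℕ) {x : Ed q} (hx : x ∈ adW q) {f : Ed q → ℝ}
    (hf : DifferentiableAt ℝ f x) (k : Fin (q + 3)) :
    pdiff (fun w => acRho (w 0) * f w) k x =
      (if k = 0 then -(x 0) / acRho (x 0) else 0) * f x + acRho (x 0) * pdiff f k x := by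
  have hx0 : x 0 ∈ Ioo (-1 : ℝ) 1 := hx
  have hc : DifferentiableAt ℝ (fun w : Ed q => w 0) x := dgPd_coord_diff 0 x
  have hR : DifferentiableAt ℝ (fun w : Ed q => acRho (w 0)) x :=
    DifferentiableAt.comp (g := acRho) (f := fun w : Ed q => w 0) x (acRho_differentiableAt hx0) hc
  rw [dgPd_mul hR hf k, dgPd_comp (f := fun w : Ed q => w 0) (acRho_differentiableAt hx0) hc k,
    dgPd_coord, acRho_deriv hx0]
  split_ifs <;> simp

end Claimed.Agent.R324
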