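/-
Row 324, module G, part A, leaf Sph1 (architect helper427): algebra of the inverse stereographic projection `x ↦ (t, s x_j)`, `s = dgS c x = 1/(1+n/4)`, `n = dgN c x = ∑_{c j} x_j^2`, `t = dgT c x = s (1 - n/4)`.
PROOFS.  `dgS c x = 1 / (1 + dgN c x / 4)` is `rfl`; `0 ≤ dgN c x` (`Finset.sum_nonneg`, `sq_nonneg`).
 * `dgSph_norm`: `∑ (s x_j)^2 = s^2 n` (`mul_pow`, `← Finset.mul_sum`), then `t^2 + s^2 n = s^2 ((1-n/4)^2 + n) = s^2 (1+n/4)^2 = 1` (`field_simp; ring`).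
 * `dgSph_one_add`: `1 + s (1 - n/4) = s ((1+n/4) + (1-n/4)) = 2 s`.
 * `dgSph_inv`: `n = ∑ (2 Y_j/(1+T))^2 = 4 (∑ Y_j^2)/(1+T)^2 = 4 (1-T^2)/(1+T)^2 = 4 (1-T)/(1+T)` (rewrite the summands with `hx` via `Finset.sum_congr` + `Finset.mem_filter`; `← Finset.sum_div`/`Finset.mul_sum`);
   `1 + n/4 = 2/(1+T)`, so `s = (1+T)/2`, `t = s (1 - n/4) = (1+T)/2 * (2T/(1+T)) = T`, `s x_j = (1+T)/2 * 2 Y_j/(1+T) = Y_j`.
-/
import Claimed.Agent.R324.Geo.A.Defs

set_option autoImplicit false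

namespace Claimed.Agent.R324

open Set Claims.C0510
open scoped ContDiff

variable {d : ℕ} (c : Fin d → Prop) [DecidablePred c]

theorem dgS_eq (x : EuclideanSpace ℝ (Fin d)) : dgS c x = 1 / (1 + dgN c x / 4) := rfl

theorem dgN_nonneg (x : EuclideanSpace ℝ (Fin d)) : 0 ≤ dgN c x := by
  unfold dgN
  exact Finset.sum_nonneg fun j _ => sq_nonneg _

theorem dgSph_norm (x : EuclideanSpace ℝ (Fin d)) :
    dgT c x ^ 2 + ∑ j : Fin d with c j, (dgS c x * x j) ^ 2 = 1 := by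
  have hn := dgN_nonneg c x
  have h1 : ∑ j : Fin d with c j, (dgS c x * x j) ^ 2 = dgS c x ^ 2 * dgN c x := by
    unfold dgN
    rw [Finset.mul_sum]
    exact Finset.sum_congr rfl fun j _ => mul_pow _ _ _
  rw [h1]
  unfold dgT
  rw [dgS_eq]
  generalize dgN c x = n at *
  have h2 : 1 + n / 4 ≠ 0 := by positivity
  field_simp
  ring

theorem dgSph_one_add (x : EuclideanSpace ℝ (Fin d)) : 1 + dgT c x = 2 * dgS c x := by
  have hn := dgN_nonneg c x
  unfold dgT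
  rw [dgS_eq]
  generalize dgN c x = n at *
  have h2 : 1 + n / 4 ≠ 0 := by positivity
  field_simp
  ring

theorem dgSph_inv (x : EuclideanSpace ℝ (Fin d)) (T : ℝ) (Y : Fin d → ℝ)
    (h1 : T ^ 2 + ∑ j : Fin d with c j, Y j ^ 2 = 1) (hT : 0 < 1 + T)
    (hx : ∀ j, c j → x j = 2 * Y j / (1 + T)) :
    dgS c x = (1 + T) / 2 ∧ dgT c x = T ∧ ∀ j, c j → dgS c x * x j = Y j := by
  have hT0 := hT.ne'
  have hn : dgN c x = 4 * (1 - T) / (1 + T) := by
    have h2 : dgN c x = 4 * (∑ j : Fin d with c j, Y j ^ 2) / (1 + T) ^ 2 := by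
      unfold dgN
      rw [Finset.mul_sum, Finset.sum_div]
      refine Finset.sum_congr rfl fun j hj => ?_
      rw [hx j (Finset.mem_filter.1 hj).2, div_pow]
      ring
    have h3 : ∑ j : Fin d with c j, Y j ^ 2 = 1 - T ^ 2 := by linarith
    rw [h2, h3]
    field_simp
    ring
  have hs : dgS c x = (1 + T) / 2 := by
    have h4 : 1 + 4 * (1 - T) / (1 + T) / 4 = 2 / (1 + T) := by
      field_simp
      ring
    rw [dgS_eq, hn, h4, one_div_div]
  refine ⟨hs, ?_, ?_⟩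
  · unfold dgT
    rw [hs, hn]
    field_simp
    ring
  · intro j hj
    rw [hs, hx j hj]
    field_simp

end Claimed.Agent.R324
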