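/-
Row 324, module G, part A, leaf Sph2 (architect helper427): smoothness and partial derivatives of the inverse stereographic projection.
TOOLS: `dgS_contDiff, dgS_pdiff, dgS_pos` (Geo/D/S.lean), rules `dgPd_*` (Geo/D/Pd.lean).
PROOFS.  * `dgN`: finite sum of squares of coordinates: `ContDiff.sum`, `(EuclideanSpace.proj j).contDiff.pow 2`; 
   `pdiff (dgN c) k x = ∑_{c j} 2 x_j [k = j] = if c k then 2 x_k else 0` (`dgPd_sum, dgPd_pow, dgPd_coord`, `Finset.sum_ite_eq`, `Finset.mem_filter`).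
 * `dgT = s * (1 - n/4)`: `dgPd_mul`: `∂_k t = ∂_k s (1 - n/4) - s ∂_k n / 4`; for `c k`: `-(x_k/2) s^2 (1-n/4) - s x_k/2 = -(x_k/2) s (s (1-n/4) + 1) = -(x_k/2) s (2 s) = -s^2 x_k`
   (use `1 + dgT c x = 2 * dgS c x`, `dgSph_one_add`, with `dgT` unfolded).
 * `dgSx_pdiff`: `dgPd_mul`, `dgS_pdiff`, `dgPd_coord`.
-/
import Claimed.Agent.R324.Geo.A.Sph1
import Claimed.Agent.R324.Geo.D.S

set_option autoImplicit false

namespace Claimed.Agent.R324

open Set Claims.C0510
open scoped ContDiff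

variable {d : ℕ} (c : Fin d → Prop) [DecidablePred c]

theorem dgN_contDiff : ContDiff ℝ ∞ (dgN c) := by
  unfold dgN
  refine ContDiff.sum fun j _ => ?_
  exact ((EuclideanSpace.proj j : EuclideanSpace ℝ (Fin d) →L[ℝ] ℝ).contDiff).pow 2

theorem dgT_contDiff : ContDiff ℝ ∞ (dgT c) := by
  unfold dgT
  exact (dgS_contDiff c).mul (contDiff_const.sub ((dgN_contDiff c).div_const 4))

theorem dgSx_contDiff (j : Fin d) :
    ContDiff ℝ ∞ (fun w : EuclideanSpace ℝ (Fin d) => dgS c w * w j) := by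
  exact (dgS_contDiff c).mul (EuclideanSpace.proj j : EuclideanSpace ℝ (Fin d) →L[ℝ] ℝ).contDiff

theorem dgN_pdiff (k : Fin d) (x : EuclideanSpace ℝ (Fin d)) :
    pdiff (dgN c) k x = if c k then 2 * x k else 0 := by
  have hsq : ∀ j : Fin d, DifferentiableAt ℝ (fun w : EuclideanSpace ℝ (Fin d) => w j ^ 2) x :=
    fun j => (dgPd_coord_diff j x).pow 2
  have h1 : dgN c = fun w : EuclideanSpace ℝ (Fin d) => ∑ j : Fin d with c j, w j ^ 2 := rfl
  rw [h1, dgPd_sum _ (fun j _ => hsq j)]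
  have h2 : ∀ j : Fin d, pdiff (fun w : EuclideanSpace ℝ (Fin d) => w j ^ 2) k x =
      if k = j then 2 * x k else 0 := by
    intro j
    rw [dgPd_pow (dgPd_coord_diff j x), dgPd_coord]
    by_cases hij : k = j
    · subst hij
      simp
    · simp [hij]
  simp only [h2]
  rw [Finset.sum_ite_eq]
  simp only [Finset.mem_filter, Finset.mem_univ, true_and]

theorem dgT_pdiff (k : Fin d) (x : EuclideanSpace ℝ (Fin d)) :
    pdiff (dgT c) k x = if c k then -(dgS c x ^ 2 * x k) else 0 := by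
  have hS : DifferentiableAt ℝ (dgS c) x :=
    ((dgS_contDiff c).differentiable (by simp)).differentiableAt
  have hN : DifferentiableAt ℝ (dgN c) x :=
    ((dgN_contDiff c).differentiable (by simp)).differentiableAt
  have hN4 : DifferentiableAt ℝ (fun w => (1 / 4 : ℝ) * dgN c w) x := hN.const_mul _
  have h1 : dgT c = fun w => dgS c w * ((fun _ => (1 : ℝ)) w - (fun w => (1 / 4 : ℝ) * dgN c w) w) := by
    funext w
    simp only [dgT]
    ring
  have h2 := dgSph_one_add c x
  simp only [dgT] at h2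
  rw [h1, dgPd_mul hS ((differentiableAt_const _).fun_sub hN4), dgPd_sub (differentiableAt_const _) hN4,
    dgPd_const, dgPd_const_mul _ hN, dgS_pdiff, dgN_pdiff]
  split_ifs
  · have h3 : dgS c x * (1 - dgN c x / 4) = 2 * dgS c x - 1 := by linarith
    have h4 : (1 - 1 / 4 * dgN c x) = (1 - dgN c x / 4) := by ring
    rw [h4]
    calc -(x k / 2) * dgS c x ^ 2 * (1 - dgN c x / 4) + dgS c x * (0 - 1 / 4 * (2 * x k))
        = -(x k / 2) * dgS c x * (dgS c x * (1 - dgN c x / 4)) - dgS c x * x k / 2 := by ring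
      _ = -(dgS c x ^ 2 * x k) := by
        rw [h3]
        ring
  · ring

theorem dgSx_pdiff (j k : Fin d) (x : EuclideanSpace ℝ (Fin d)) :
    pdiff (fun w => dgS c w * w j) k x =
      (if c k then -(x k / 2) * dgS c x ^ 2 * x j else 0) + (if k = j then dgS c x else 0) := by
  have hS : DifferentiableAt ℝ (dgS c) x :=
    ((dgS_contDiff c).differentiable (by simp)).differentiableAt
  rw [dgPd_mul hS (dgPd_coord_diff j x), dgS_pdiff, dgPd_coord]
  split_ifs <;> ring

end Claimed.Agent.R324
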