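/-
Row 324, module G, part A, leaf ChiSm (architect helper427): the standard chart is smooth on `adW q`; components of its derivative.
PROOFS.  * `acCo_contDiffOn`: `unfold acCo` under the binder and `split_ifs` on the (point independent) conditions on `i`:
   the five cases are `dgT_contDiff`, `dgSx_contDiff` (Sph2), a coordinate (`(EuclideanSpace.proj 0).contDiff`), and products with `fun x => acRho (x 0)`, which is
   `acRho_contDiffOn.comp (coordinate).contDiffOn (fun x hx => hx)` on `adW q = {x | x 0 ∈ Ioo (-1) 1}`.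
 * `acChi_contDiffOn`: `contDiffOn_euclidean` (`ContDiffOn 𝕜 n f t ↔ ∀ i, ContDiffOn 𝕜 n (fun x => f x i) t`), `acChi q x i = acCo q x i` by `rfl`.
 * `acChi_fderiv_apply`: `acChi q` is differentiable at `x` (`adW_isOpen`, `ContDiffOn.contDiffAt`, `.differentiableAt (by simp)`);
   compose with the continuous linear map `EuclideanSpace.proj i`: `((EuclideanSpace.proj i).hasFDerivAt.comp x h.hasFDerivAt).fderiv` (cf. `tfderiv_comp_apply` in Geo/T/Basic.lean for the same argument); `pdiff` is `fderiv .. (single k 1)` by definition.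
-/
import Claimed.Agent.R324.Geo.A.Sph2
import Claimed.Agent.R324.Geo.A.Rho
import Claimed.Agent.R324.Geo.Centre

set_option autoImplicit false

namespace Claimed.Agent.R324

open Set Claims.C0510
open scoped ContDiff

variable (q : ℕ)

theorem chiSm_coord_contDiff (j : Fin (q + 3)) : ContDiff ℝ ∞ (fun x : Ed q => x j) :=
  (EuclideanSpace.proj j : Ed q →L[ℝ] ℝ).contDiff

theorem chiSm_rho_contDiffOn : ContDiffOn ℝ ∞ (fun x : Ed q => acRho (x 0)) (adW q) :=
  acRho_contDiffOn.comp (chiSm_coord_contDiff q 0).contDiffOn (fun _ hx => hx)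

theorem acCo_contDiffOn (i : Fin (3 + (q + 2))) :
    ContDiffOn ℝ ∞ (fun x : Ed q => acCo q x i) (adW q) := by
  unfold acCo
  split_ifs
  · exact (dgT_contDiff (cW q)).contDiffOn
  · exact (dgSx_contDiff (cW q) (acPm q i)).contDiffOn
  · exact (chiSm_coord_contDiff q 0).contDiffOn
  · exact (chiSm_rho_contDiffOn q).mul (dgT_contDiff (cZ q)).contDiffOn
  · exact (chiSm_rho_contDiffOn q).mul (dgSx_contDiff (cZ q) (acPm q i)).contDiffOn

theorem acChi_contDiffOn : ContDiffOn ℝ ∞ (acChi q) (adW q) := by
  rw [contDiffOn_euclidean]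
  intro i
  exact acCo_contDiffOn q i

theorem acChi_differentiableAt {x : Ed q} (hx : x ∈ adW q) : DifferentiableAt ℝ (acChi q) x :=
  ((acChi_contDiffOn q).contDiffAt ((adW_isOpen q).mem_nhds hx)).differentiableAt (by simp)

theorem acChi_fderiv_apply {x : Ed q} (hx : x ∈ adW q) (k : Fin (q + 3))
    (i : Fin (3 + (q + 2))) :
    fderiv ℝ (acChi q) x (EuclideanSpace.single k 1) i = pdiff (fun w => acCo q w i) k x := by
  have h := acChi_differentiableAt q hx
  have h1 : HasFDerivAt (fun w => acCo q w i)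
      ((EuclideanSpace.proj i : EN q →L[ℝ] ℝ).comp (fderiv ℝ (acChi q) x)) x :=
    (EuclideanSpace.proj i : EN q →L[ℝ] ℝ).hasFDerivAt.comp x h.hasFDerivAt
  unfold pdiff
  rw [h1.fderiv]
  rfl

end Claimed.Agent.R324
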