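/-
Row 324, module G, part A, leaf Idx (architect helper427): index bookkeeping between `Fin (q+3)` (parameters) and `Fin (3+(q+2))` (ambient); coordinates of the standard chart.
PROOFS.  Everything is `Fin.ext` + `simp [acEm, acPm, ac0, ac4, iy, cZ, cW]` + `split_ifs` + `omega`.
 * `ac_sumU`: e.g. `Finset.sum_filter`, then compare both sides through `Fin.sum_univ_eq_sum_range`-free route:
   show `Finset.univ.filter (fun i => i.val < 3) = insert (ac0 q) ((Finset.univ.filter (cW q)).image (acEm q))`  (`Finset.ext`; for `i` with `1 ≤ i.val < 3` the preimage is `acPm q i`),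
   then `Finset.sum_insert` (`ac0 q` is not in the image: `(acEm q j).val ≥ 1`) and `Finset.sum_image` (`acEm` injective: `acPm_acEm`).
 * `ac_sumV`: same with `insert (iy q) (insert (ac4 q) (image ..))`.
 * `acCo_*`: `unfold acCo`, evaluate the `if`s (`simp [ac0]`, ...); for `acCo_emW`: `(acEm q j).val = j.val - q ∈ {1,2}`, and `acPm_acEm`.
-/
import Claimed.Agent.R324.Geo.A.Defs

set_option autoImplicit false

namespace Claimed.Agent.R324

open Set Claims.C0510
open scoped ContDiff

variable (q : ℕ)

theorem acPm_acEm (j : Fin (q + 3)) : acPm q (acEm q j) = j := by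
  apply Fin.ext
  have := j.isLt
  simp only [acPm, acEm]
  split_ifs <;> omega

theorem acEm_zero : acEm q 0 = iy q := by
  apply Fin.ext
  simp [acEm, iy]

theorem idx_acEm_injective : Function.Injective (acEm q) := fun a b h => by
  rw [← acPm_acEm q a, h, acPm_acEm]

theorem idx_acEm_val_W {j : Fin (q + 3)} (hj : cW q j) : (acEm q j).val = j.val - q := by
  unfold cW at hj
  simp only [acEm]
  split_ifs <;> omega

theorem idx_acEm_val_Z {j : Fin (q + 3)} (hj : cZ q j) : (acEm q j).val = j.val + 4 := by
  unfold cZ at hj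
  simp only [acEm]
  split_ifs <;> omega

/-- every ambient index is a pole, the height, or comes from a `z` or `w` parameter index. -/
theorem ac_cases (i : Fin (3 + (q + 2))) :
    i = ac0 q ∨ i = iy q ∨ i = ac4 q ∨ (∃ j, cW q j ∧ i = acEm q j) ∨ (∃ j, cZ q j ∧ i = acEm q j) := by
  have hi := i.isLt
  by_cases h0 : i.val = 0
  · left; exact Fin.ext h0
  by_cases h3 : i.val = 3
  · right; left; exact Fin.ext h3
  by_cases h4 : i.val = 4
  · right; right; left; exact Fin.ext h4
  by_cases hlt : i.val < 3
  · right; right; right; left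
    have hc : cW q ⟨q + i.val, by omega⟩ := by
      show q < q + i.val
      omega
    refine ⟨⟨q + i.val, by omega⟩, hc, ?_⟩
    apply Fin.ext
    rw [idx_acEm_val_W q hc]
    show i.val = q + i.val - q
    omega
  · right; right; right; right
    have hc : cZ q ⟨i.val - 4, by omega⟩ := by
      show 1 ≤ i.val - 4 ∧ i.val - 4 ≤ q
      omega
    refine ⟨⟨i.val - 4, by omega⟩, hc, ?_⟩
    apply Fin.ext
    rw [idx_acEm_val_Z q hc]
    show i.val = i.val - 4 + 4
    omega

/-- every parameter index is `0`, or of class `z`, or of class `w`. -/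
theorem ac_cases' (j : Fin (q + 3)) : j = 0 ∨ cZ q j ∨ cW q j := by
  by_cases h0 : j.val = 0
  · left; exact Fin.ext h0
  by_cases h1 : j.val ≤ q
  · right; left
    exact ⟨by omega, h1⟩
  · right; right
    show q < j.val
    omega

theorem ac_sumU (f : Fin (3 + (q + 2)) → ℝ) :
    ∑ i : Fin (3 + (q + 2)) with i.val < 3, f i =
      f (ac0 q) + ∑ j : Fin (q + 3) with cW q j, f (acEm q j) := by
  have hset : (Finset.univ.filter (fun i : Fin (3 + (q + 2)) => i.val < 3)) =
      insert (ac0 q) ((Finset.univ.filter (cW q)).image (acEm q)) := by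
    ext i
    simp only [Finset.mem_filter, Finset.mem_univ, true_and, Finset.mem_insert, Finset.mem_image]
    constructor
    · intro h
      rcases ac_cases q i with h1 | h1 | h1 | ⟨j, hj, h1⟩ | ⟨j, hj, h1⟩
      · exact Or.inl h1
      · rw [h1] at h; exact absurd h (by simp [iy])
      · rw [h1] at h; exact absurd h (by simp [ac4])
      · exact Or.inr ⟨j, hj, h1.symm⟩
      · rw [h1, idx_acEm_val_Z q hj] at h; omega
    · rintro (rfl | ⟨j, hj, rfl⟩)
      · show (0 : ℕ) < 3
        omega
      · rw [idx_acEm_val_W q hj]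
        have := j.isLt
        omega
  have hnot : ac0 q ∉ (Finset.univ.filter (cW q)).image (acEm q) := by
    simp only [Finset.mem_filter, Finset.mem_univ, true_and, Finset.mem_image, not_exists, not_and]
    intro j hj h
    have h1 := congrArg Fin.val h
    rw [idx_acEm_val_W q hj] at h1
    unfold cW at hj
    have h2 : (ac0 q).val = 0 := rfl
    omega
  rw [hset, Finset.sum_insert hnot, Finset.sum_image (fun a _ b _ h => idx_acEm_injective q h)]

theorem ac_sumV (f : Fin (3 + (q + 2)) → ℝ) :
    ∑ i : Fin (3 + (q + 2)) with 3 ≤ i.val, f i =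
      f (iy q) + f (ac4 q) + ∑ j : Fin (q + 3) with cZ q j, f (acEm q j) := by
  have hset : (Finset.univ.filter (fun i : Fin (3 + (q + 2)) => 3 ≤ i.val)) =
      insert (iy q) (insert (ac4 q) ((Finset.univ.filter (cZ q)).image (acEm q))) := by
    ext i
    simp only [Finset.mem_filter, Finset.mem_univ, true_and, Finset.mem_insert, Finset.mem_image]
    constructor
    · intro h
      rcases ac_cases q i with h1 | h1 | h1 | ⟨j, hj, h1⟩ | ⟨j, hj, h1⟩
      · rw [h1] at h; exact absurd h (by simp [ac0])
      · exact Or.inl h1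
      · exact Or.inr (Or.inl h1)
      · rw [h1, idx_acEm_val_W q hj] at h
        have := j.isLt
        omega
      · exact Or.inr (Or.inr ⟨j, hj, h1.symm⟩)
    · rintro (rfl | rfl | ⟨j, hj, rfl⟩)
      · show 3 ≤ 3
        omega
      · show 3 ≤ 4
        omega
      · rw [idx_acEm_val_Z q hj]
        omega
  have hnot4 : ac4 q ∉ (Finset.univ.filter (cZ q)).image (acEm q) := by
    simp only [Finset.mem_filter, Finset.mem_univ, true_and, Finset.mem_image, not_exists, not_and]
    intro j hj h
    have h1 := congrArg Fin.val h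
    rw [idx_acEm_val_Z q hj] at h1
    unfold cZ at hj
    have h2 : (ac4 q).val = 4 := rfl
    omega
  have hnot3 : iy q ∉ insert (ac4 q) ((Finset.univ.filter (cZ q)).image (acEm q)) := by
    simp only [Finset.mem_insert, Finset.mem_filter, Finset.mem_univ, true_and, Finset.mem_image, not_or, not_exists,
      not_and]
    refine ⟨fun h => ?_, fun j hj h => ?_⟩
    · have h1 := congrArg Fin.val h
      have h2 : (ac4 q).val = 4 := rfl
      have h3 : (iy q).val = 3 := rfl
      omega
    · have h1 := congrArg Fin.val h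
      rw [idx_acEm_val_Z q hj] at h1
      have h3 : (iy q).val = 3 := rfl
      omega
  rw [hset, Finset.sum_insert hnot3, Finset.sum_insert hnot4,
    Finset.sum_image (fun a _ b _ h => idx_acEm_injective q h), add_assoc]

theorem acCo_ac0 (x : Ed q) : acCo q x (ac0 q) = dgT (cW q) x := by
  have h0 : (ac0 q).val = 0 := rfl
  unfold acCo
  rw [if_pos h0]

theorem acCo_iy (x : Ed q) : acCo q x (iy q) = x 0 := by
  have h3 : (iy q).val = 3 := rfl
  unfold acCo
  rw [if_neg (by omega), if_neg (by omega), if_pos h3]

theorem acCo_ac4 (x : Ed q) : acCo q x (ac4 q) = acRho (x 0) * dgT (cZ q) x := by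
  have h4 : (ac4 q).val = 4 := rfl
  unfold acCo
  rw [if_neg (by omega), if_neg (by omega), if_neg (by omega), if_pos h4]

theorem acCo_emW (x : Ed q) {j : Fin (q + 3)} (hj : cW q j) :
    acCo q x (acEm q j) = dgS (cW q) x * x j := by
  have hv := idx_acEm_val_W q hj
  have hlt := j.isLt
  unfold cW at hj
  unfold acCo
  rw [if_neg (by omega), if_pos (by omega), acPm_acEm]

theorem acCo_emZ (x : Ed q) {j : Fin (q + 3)} (hj : cZ q j) :
    acCo q x (acEm q j) = acRho (x 0) * (dgS (cZ q) x * x j) := by
  have hv := idx_acEm_val_Z q hj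
  unfold cZ at hj
  unfold acCo
  rw [if_neg (by omega), if_neg (by omega), if_neg (by omega), if_neg (by omega), acPm_acEm]

/-- the conformal factors of `Geo/Defs.lean` in the generic notation. -/
theorem sZ_eq_dgS (x : Ed q) : sZ q x = dgS (cZ q) x := by
  unfold sZ dgS
  congr 3

theorem sW_eq_dgS (x : Ed q) : sW q x = dgS (cW q) x := by
  unfold sW dgS
  congr 3

end Claimed.Agent.R324
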