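/-
Row 324, module G, part A, leaf Img (architect helper427): the standard chart maps `adW q` into `S^2 x S^(q+1)` and into the open set `acV q`; the image of the centre.
PROOFS.  `acChi q x i = acCo q x i` by `rfl`.  `x ∈ adW q` means `x 0 ∈ Ioo (-1) 1` (`Iff.rfl`).
 * `acChi_mem`: `spherePairProd q = {X | ∑_{i<3} X_i^2 = 1 ∧ ∑_{3≤i} X_i^2 = 1}`.  First: `ac_sumU q (fun i => acCo q x i ^ 2)`, `acCo_ac0`, `acCo_emW` (inside the sum: `Finset.sum_congr rfl`, `(Finset.mem_filter.mp hj).2`), `dgSph_norm (cW q) x`.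
   Second: `ac_sumV`, `acCo_iy, acCo_ac4, acCo_emZ`: `r^2 + (ρ t)^2 + ∑ (ρ (s x_j))^2 = r^2 + ρ^2 (t^2 + ∑ (s x_j)^2) = r^2 + (1 - r^2) = 1` (`mul_pow`, `← Finset.mul_sum`, `dgSph_norm (cZ q) x`, `acRho_sq`).
 * `acChi_mem_V`: `1 + t_W = 2 s_W > 0` (`dgSph_one_add`, `dgS_pos`), `ρ + ρ t_Z = ρ (1 + t_Z) = 2 ρ s_Z > 0` (`acRho_pos`).
 * `acChi_centre`: `ext i`; `rcases ac_cases q i`; at `adC q y = single 0 y`: `dgN c = 0`, `dgS c = 1` (`dgS_single`, as `¬ c 0`), `dgT c = 1`, `adC q y j = 0` for `j ≠ 0`;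
   right side: `simp [acBase, EuclideanSpace.single_apply/PiLp.add_apply]` and the indices `ac0 q, iy q, ac4 q, acEm q j` are pairwise different (`Fin.ext_iff`, `simp [ac0, iy, ac4, acEm]`, `omega`).
-/
import Claimed.Agent.R324.Geo.A.Sph1
import Claimed.Agent.R324.Geo.A.Idx
import Claimed.Agent.R324.Geo.A.Rho
import Claimed.Agent.R324.Geo.D.S
import Claimed.Agent.R324.Geo.Centre

set_option autoImplicit false

namespace Claimed.Agent.R324

open Set Claims.C0510
open scoped ContDiff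

variable (q : ℕ)

theorem acChi_mem {x : Ed q} (hx : x ∈ adW q) : acChi q x ∈ spherePairProd q := by
  have hx0 : x 0 ∈ Ioo (-1 : ℝ) 1 := hx
  refine ⟨?_, ?_⟩
  · have h1 := ac_sumU q (fun i => acCo q x i ^ 2)
    have h2 : ∑ j : Fin (q + 3) with cW q j, acCo q x (acEm q j) ^ 2
        = ∑ j : Fin (q + 3) with cW q j, (dgS (cW q) x * x j) ^ 2 :=
      Finset.sum_congr rfl fun j hj => by rw [acCo_emW q x (Finset.mem_filter.mp hj).2]
    have h3 := dgSph_norm (cW q) x
    simp only [acCo_ac0] at h1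
    rw [h2, h3] at h1
    exact h1
  · have h1 := ac_sumV q (fun i => acCo q x i ^ 2)
    have h2 : ∑ j : Fin (q + 3) with cZ q j, acCo q x (acEm q j) ^ 2
        = acRho (x 0) ^ 2 * ∑ j : Fin (q + 3) with cZ q j, (dgS (cZ q) x * x j) ^ 2 := by
      rw [Finset.mul_sum]
      exact Finset.sum_congr rfl fun j hj => by
        rw [acCo_emZ q x (Finset.mem_filter.mp hj).2, mul_pow]
    have h3 := dgSph_norm (cZ q) x
    have h4 := acRho_sq hx0
    simp only [acCo_iy, acCo_ac4] at h1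
    rw [h2] at h1
    have h5 : x 0 ^ 2 + (acRho (x 0) * dgT (cZ q) x) ^ 2
        + acRho (x 0) ^ 2 * ∑ j : Fin (q + 3) with cZ q j, (dgS (cZ q) x * x j) ^ 2 = 1 := by
      have : x 0 ^ 2 + (acRho (x 0) * dgT (cZ q) x) ^ 2
        + acRho (x 0) ^ 2 * ∑ j : Fin (q + 3) with cZ q j, (dgS (cZ q) x * x j) ^ 2
        = x 0 ^ 2 + acRho (x 0) ^ 2 * (dgT (cZ q) x ^ 2
          + ∑ j : Fin (q + 3) with cZ q j, (dgS (cZ q) x * x j) ^ 2) := by ring
      rw [this, h3, h4]; ring
    rw [h5] at h1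
    exact h1

theorem acChi_mem_V {x : Ed q} (hx : x ∈ adW q) : acChi q x ∈ acV q := by
  have hx0 : x 0 ∈ Ioo (-1 : ℝ) 1 := hx
  have e1 : acChi q x (iy q) = x 0 := acCo_iy q x
  have e2 : acChi q x (ac0 q) = dgT (cW q) x := acCo_ac0 q x
  have e3 : acChi q x (ac4 q) = acRho (x 0) * dgT (cZ q) x := acCo_ac4 q x
  refine ⟨?_, ?_, ?_⟩
  · rw [e1]; exact hx0
  · rw [e2, dgSph_one_add]
    have := dgS_pos (cW q) x
    positivity
  · rw [e1, e3]
    have h1 : acRho (x 0) + acRho (x 0) * dgT (cZ q) x = acRho (x 0) * (2 * dgS (cZ q) x) := by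
      rw [← dgSph_one_add]; ring
    rw [h1]
    have := dgS_pos (cZ q) x
    have := acRho_pos hx0
    positivity

theorem acChi_centre (y : ℝ) : acChi q (adC q y) = acBase q y := by
  have hZ0 : ¬ cZ q 0 := by simp [cZ]
  have hW0 : ¬ cW q 0 := by simp [cW]
  have hsZ : dgS (cZ q) (adC q y) = 1 := dgS_single (cZ q) hZ0 y
  have hsW : dgS (cW q) (adC q y) = 1 := dgS_single (cW q) hW0 y
  have htZ : dgT (cZ q) (adC q y) = 1 := by
    have := dgSph_one_add (cZ q) (adC q y)
    rw [hsZ] at this; linarith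
  have htW : dgT (cW q) (adC q y) = 1 := by
    have := dgSph_one_add (cW q) (adC q y)
    rw [hsW] at this; linarith
  have h00 : adC q y 0 = y := adC_zero q y
  ext i
  change acCo q (adC q y) i = _
  rcases ac_cases q i with rfl | rfl | rfl | ⟨j, hj, rfl⟩ | ⟨j, hj, rfl⟩
  · rw [acCo_ac0, htW]
    simp [acBase, ac0, iy, ac4, Fin.ext_iff]
  · rw [acCo_iy, h00]
    simp [acBase, ac0, iy, ac4, Fin.ext_iff]
  · rw [acCo_ac4, htZ, h00]
    simp [acBase, ac0, iy, ac4, Fin.ext_iff]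
  · have hj0 : j ≠ 0 := fun h => hW0 (h ▸ hj)
    rw [acCo_emW q _ hj, centre_adC_ne q y hj0]
    have hv := idx_acEm_val_W q hj
    have hlt := j.isLt
    unfold cW at hj
    have a1 : acEm q j ≠ ac0 q := fun h => by
      have := congrArg Fin.val h; simp only [ac0] at this; omega
    have a2 : acEm q j ≠ iy q := fun h => by
      have := congrArg Fin.val h; simp only [iy] at this; omega
    have a3 : acEm q j ≠ ac4 q := fun h => by
      have := congrArg Fin.val h; simp only [ac4] at this; omega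
    simp [acBase, a1, a2, a3]
  · have hj0 : j ≠ 0 := fun h => hZ0 (h ▸ hj)
    rw [acCo_emZ q _ hj, centre_adC_ne q y hj0]
    have hv := idx_acEm_val_Z q hj
    have hlt := j.isLt
    unfold cZ at hj
    have a1 : acEm q j ≠ ac0 q := fun h => by
      have := congrArg Fin.val h; simp only [ac0] at this; omega
    have a2 : acEm q j ≠ iy q := fun h => by
      have := congrArg Fin.val h; simp only [iy] at this; omega
    have a3 : acEm q j ≠ ac4 q := fun h => by
      have := congrArg Fin.val h; simp only [ac4] at this; omega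
    simp [acBase, a1, a2, a3]

end Claimed.Agent.R324
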