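/-
Row 324, module G, part A, leaf Inj (architect helper427): if the coordinate matrix of SOME bilinear form field is diagonal with non-zero entries, the derivative of the parametrisation is injective.
PROOF.  Let `L = fderiv ℝ ψ x`.  By `injective_iff_map_eq_zero` it suffices: `L v = 0 → v = 0`.  `v = ∑ i, v i • single i 1` (as in `coordMetric_quad` of Geo/Form.lean, or `tE_eq_sum` in Geo/T/Basic.lean).
 For each `j`: `0 = g (ψ x) (L v) (L (single j 1)) = ∑ i, v i * g (ψ x) (L (single i 1)) (L (single j 1)) = ∑ i, v i * coordMetric g ψ x i j = ∑ i, v i * diagonal D i j = v j * D j`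
 (`map_sum, map_smul, sum_apply, smul_apply`, `coordMetric_apply`, `h`, `Matrix.diagonal_apply`, `Finset.sum_ite_eq`).  So `v j = 0`; `ext j`.
-/
import Claimed.Agent.R324.Geo.Form

set_option autoImplicit false

namespace Claimed.Agent.R324

open Set Claims.C0510
open scoped ContDiff

theorem ac_fderiv_injective {d N : ℕ}
    (g : EuclideanSpace ℝ (Fin N) → EuclideanSpace ℝ (Fin N) →L[ℝ] EuclideanSpace ℝ (Fin N) →L[ℝ] ℝ)
    (ψ : EuclideanSpace ℝ (Fin d) → EuclideanSpace ℝ (Fin N)) (x : EuclideanSpace ℝ (Fin d))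
    (D : Fin d → ℝ) (hD : ∀ k, D k ≠ 0) (h : coordMetric g ψ x = Matrix.diagonal D) :
    Function.Injective (fderiv ℝ ψ x) := by
  rw [injective_iff_map_eq_zero]
  intro v hv
  have hx : v = ∑ i, v i • (EuclideanSpace.single i (1 : ℝ) : EuclideanSpace ℝ (Fin d)) := by
    ext k
    simp [Finset.sum_apply, Pi.single_apply]
  ext j
  have h1 : g (ψ x) (fderiv ℝ ψ x v) (fderiv ℝ ψ x (EuclideanSpace.single j 1)) = 0 := by
    rw [hv]
    simp
  have h2 : g (ψ x) (fderiv ℝ ψ x v) (fderiv ℝ ψ x (EuclideanSpace.single j 1))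
      = ∑ i, v i * coordMetric g ψ x i j := by
    conv_lhs => rw [hx]
    simp only [map_sum, map_smul, sum_apply, smul_apply,
      coordMetric_apply, smul_eq_mul]
  rw [h2, h] at h1
  simp only [Matrix.diagonal_apply, mul_ite, mul_zero, Finset.sum_ite_eq', Finset.mem_univ,
    if_true] at h1
  have h3 : v j = 0 := by
    rcases mul_eq_zero.1 h1 with h4 | h4
    · exact h4
    · exact absurd h4 (hD j)
  simpa using h3

end Claimed.Agent.R324
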