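/-
Row 324, module G, part A, leaf Refl (architect helper427): block Householder reflections of `R^N`.
PROOFS.
 * `ac_refl`.  Let `n = a - b` and `Φ = (ℝ ∙ n)ᗮ.reflection` (Mathlib: `Submodule.reflection K : E ≃ₗᵢ[𝕜] E`; older name `reflection K`).
   `Φ a = b`: Mathlib lemma `Submodule.reflection_sub (h : ‖v‖ = ‖w‖) : reflection (ℝ ∙ (v - w))ᗮ v = w` (search `reflection_sub`).
   Formula: `reflection Kᗮ X = -reflection K X` (`Submodule.reflection_orthogonal_apply`) and `Submodule.reflection_singleton_apply : reflection (𝕜 ∙ u) v = 2 • (⟪u, v⟫ / ‖u‖ ^ 2) • u - v`,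
   hence `Φ X = X - c • n` for a scalar `c`, and `(Φ X) i = X i - c * n i = X i` when `n i = a i - b i = 0` (`ha, hb`).
 * `ac_iso_block`.  `⟪Φ ξ, Φ η⟫ = ⟪ξ, η⟫` (`Φ.inner_map_map`); `⟪ξ, η⟫_ℝ = ∑ i, ξ i * η i` up to `mul_comm` (`PiLp.inner_apply`/`EuclideanSpace.inner_eq_star_dotProduct`, `simp [inner]`);
   split each sum with `Finset.sum_filter_add_sum_filter_not Finset.univ S`; the `¬ S` parts agree by `h`; cancel.
 * `ac_iso_fix`.  By `ac_iso_block` with `ξ = η = X`: `∑_{S i} (Φ X i)^2 = ∑_{S i} (X i)^2 = 0`, so `Φ X i = 0 = X i` for `S i` (`Finset.sum_eq_zero_iff_of_nonneg`, `mul_self_nonneg`); for `¬ S i` use `h`.  `ext i`.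
-/
import Mathlib

set_option autoImplicit false

namespace Claimed.Agent.R324

variable {N : ℕ}

theorem ac_refl (S : Fin N → Prop) (a b : EuclideanSpace ℝ (Fin N)) (hab : ‖a‖ = ‖b‖)
    (ha : ∀ i, ¬ S i → a i = 0) (hb : ∀ i, ¬ S i → b i = 0) :
    ∃ Φ : EuclideanSpace ℝ (Fin N) ≃ₗᵢ[ℝ] EuclideanSpace ℝ (Fin N),
      Φ a = b ∧ ∀ X i, ¬ S i → Φ X i = X i := by
  refine ⟨(ℝ ∙ (a - b))ᗮ.reflection, Submodule.reflection_sub hab, ?_⟩
  intro X i hi
  rw [Submodule.reflection_orthogonal_apply, Submodule.reflection_singleton_apply]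
  have h0 : (a - b) i = 0 := by
    simp [ha i hi, hb i hi]
  simp [h0]

theorem ac_iso_block (S : Fin N → Prop) [DecidablePred S]
    (Φ : EuclideanSpace ℝ (Fin N) ≃ₗᵢ[ℝ] EuclideanSpace ℝ (Fin N))
    (h : ∀ X i, ¬ S i → Φ X i = X i) (ξ η : EuclideanSpace ℝ (Fin N)) :
    ∑ i : Fin N with S i, Φ ξ i * Φ η i = ∑ i : Fin N with S i, ξ i * η i := by
  have h1 : inner ℝ (Φ ξ) (Φ η) = inner ℝ ξ η := Φ.inner_map_map ξ η
  have e1 : ∀ u v : EuclideanSpace ℝ (Fin N), inner ℝ u v = ∑ i, u i * v i := by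
    intro u v
    simp [PiLp.inner_apply, mul_comm]
  rw [e1, e1] at h1
  rw [← Finset.sum_filter_add_sum_filter_not Finset.univ S (fun i => Φ ξ i * Φ η i),
    ← Finset.sum_filter_add_sum_filter_not Finset.univ S (fun i => ξ i * η i)] at h1
  have h2 : ∑ i : Fin N with ¬ S i, Φ ξ i * Φ η i = ∑ i : Fin N with ¬ S i, ξ i * η i := by
    apply Finset.sum_congr rfl
    intro i hi
    have hi' : ¬ S i := (Finset.mem_filter.mp hi).2
    rw [h ξ i hi', h η i hi']
  rw [h2] at h1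
  exact add_right_cancel h1

theorem ac_iso_fix (S : Fin N → Prop)
    (Φ : EuclideanSpace ℝ (Fin N) ≃ₗᵢ[ℝ] EuclideanSpace ℝ (Fin N))
    (h : ∀ X i, ¬ S i → Φ X i = X i) (X : EuclideanSpace ℝ (Fin N)) (hX : ∀ i, S i → X i = 0) :
    Φ X = X := by
  classical
  have h1 := ac_iso_block S Φ h X X
  have h2 : ∑ i : Fin N with S i, X i * X i = 0 := by
    apply Finset.sum_eq_zero
    intro i hi
    rw [hX i (Finset.mem_filter.mp hi).2, mul_zero]
  rw [h2] at h1
  have h3 := (Finset.sum_eq_zero_iff_of_nonneg (fun i _ => mul_self_nonneg (Φ X i))).mp h1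
  ext i
  by_cases hi : S i
  · have h4 := h3 i (Finset.mem_filter.mpr ⟨Finset.mem_univ i, hi⟩)
    rw [hX i hi]
    exact mul_self_eq_zero.mp h4
  · exact h X i hi

end Claimed.Agent.R324
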