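/-
Row 324, module G, part A, leaf Iso (architect helper427): a block isometry of the ambient space moving the standard base point to a given non-polar point.
PROOF of `ac_iso_exists`.  Let `y = p (iy q)`, `ρ = acRho y` (`ρ^2 = 1 - y^2`, `ρ > 0`: Rho).  Blocks `S₁ i := i.val < 3`, `S₂ i := 4 ≤ i.val`.
   `a₁ = single (ac0 q) 1`, `b₁ = toLp (fun i => if i.val < 3 then p i else 0)`;   `a₂ = single (ac4 q) ρ`, `b₂ = toLp (fun i => if 4 ≤ i.val then p i else 0)`;   `e = single (iy q) y`.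
   Then `acBase q y = a₁ + e + a₂` (definition) and `p = b₁ + e + b₂` (`ext i`, three cases `i.val < 3`, `i.val = 3`, `4 ≤ i.val`).
   Norms (`EuclideanSpace.norm_eq`, or compare squares `EuclideanSpace.norm_sq_eq`/`real_inner_self_eq_norm_sq`): `‖a₁‖ = 1 = ‖b₁‖` (first equation of `hp`; `Finset.sum_filter`),
   `‖a₂‖^2 = ρ^2 = 1 - y^2 = ∑_{4 ≤ i} p_i^2 = ‖b₂‖^2` (second equation of `hp`: `∑_{3 ≤ i} p_i^2 = y^2 + ∑_{4 ≤ i} p_i^2`, split off `i = iy q`).
   `ac_refl S₁ a₁ b₁` gives `Φ₁`, `ac_refl S₂ a₂ b₂` gives `Φ₂`;  `Φ = Φ₁.trans Φ₂` (`Φ X = Φ₂ (Φ₁ X)`).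
   `Φ₁` fixes `e, a₂` and `Φ₂` fixes `b₁, e` (`ac_iso_fix`: their coordinates in the block vanish).  So `Φ (a₁ + e + a₂) = Φ₂ (b₁ + e + a₂) = b₁ + e + b₂ = p` (`map_add`).
   Height: `iy q` lies in neither block.
   `formU` (`formU_apply`, Geo/Form): `Φ₁` preserves `∑_{i<3}` by `ac_iso_block S₁`; `Φ₂` does not change the coordinates `i < 3` (`¬ S₂ i`).
   `formV = ∑_{3 ≤ i}`: `Φ₁` does not change these coordinates; for `Φ₂`: `∑_{3≤i} = (term iy q) + ∑_{4≤i}`, first unchanged, second by `ac_iso_block S₂`.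
   (Suggestion: prove the four properties for `Φ₁` and `Φ₂` separately, as two lemmas, then compose.)
 `ac_iso_mem`: `X ∈ spherePairProd q ↔ formU q X X = 1 ∧ formV q X X = 1` (`formU_apply`, `sq`).
-/
import Claimed.Agent.R324.Geo.A.Refl
import Claimed.Agent.R324.Geo.A.Rho
import Claimed.Agent.R324.Geo.Form

set_option autoImplicit false

namespace Claimed.Agent.R324

open Set Claims.C0510
open scoped ContDiff

variable (q : ℕ)

/-- splitting `∑_{3 ≤ i}` into the height term and `∑_{4 ≤ i}`. -/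
theorem iso_sum_split (f : Fin (3 + (q + 2)) → ℝ) :
    ∑ i : Fin (3 + (q + 2)) with 3 ≤ i.val, f i =
      f (iy q) + ∑ i : Fin (3 + (q + 2)) with 4 ≤ i.val, f i := by
  have h : (Finset.univ.filter fun i : Fin (3 + (q + 2)) => 3 ≤ i.val) =
      insert (iy q) (Finset.univ.filter fun i : Fin (3 + (q + 2)) => 4 ≤ i.val) := by
    ext i
    simp only [Finset.mem_filter, Finset.mem_univ, true_and, Finset.mem_insert, iy, Fin.ext_iff]
    omega
  rw [h, Finset.sum_insert]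
  simp [iy]

/-- an isometry fixing the coordinates `≥ 3`. -/
theorem iso_props1 (Φ : EN q ≃ₗᵢ[ℝ] EN q)
    (h : ∀ (X : EN q) (i : Fin (3 + (q + 2))), ¬ i.val < 3 → Φ X i = X i) :
    (∀ X, Φ X (iy q) = X (iy q)) ∧
      (∀ ξ η, formU q (Φ ξ) (Φ η) = formU q ξ η) ∧ (∀ ξ η, formV q (Φ ξ) (Φ η) = formV q ξ η) := by
  refine ⟨fun X => h X _ (by simp [iy]), fun ξ η => ?_, fun ξ η => ?_⟩
  · rw [formU_apply, formU_apply]
    exact ac_iso_block (fun i : Fin (3 + (q + 2)) => i.val < 3) Φ h ξ η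
  · rw [formV_apply, formV_apply]
    refine Finset.sum_congr rfl fun i hi => ?_
    have hi' : ¬ i.val < 3 := by
      have := (Finset.mem_filter.mp hi).2
      omega
    rw [h ξ i hi', h η i hi']

/-- an isometry fixing the coordinates `≤ 3`. -/
theorem iso_props2 (Φ : EN q ≃ₗᵢ[ℝ] EN q)
    (h : ∀ (X : EN q) (i : Fin (3 + (q + 2))), ¬ 4 ≤ i.val → Φ X i = X i) :
    (∀ X, Φ X (iy q) = X (iy q)) ∧
      (∀ ξ η, formU q (Φ ξ) (Φ η) = formU q ξ η) ∧ (∀ ξ η, formV q (Φ ξ) (Φ η) = formV q ξ η) := by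
  have hy : ∀ X, Φ X (iy q) = X (iy q) := fun X => h X _ (by simp [iy])
  refine ⟨hy, fun ξ η => ?_, fun ξ η => ?_⟩
  · rw [formU_apply, formU_apply]
    refine Finset.sum_congr rfl fun i hi => ?_
    have hi' : ¬ 4 ≤ i.val := by
      have := (Finset.mem_filter.mp hi).2
      omega
    rw [h ξ i hi', h η i hi']
  · rw [formV_apply, formV_apply, iso_sum_split, iso_sum_split, hy, hy]
    congr 1
    exact ac_iso_block (fun i : Fin (3 + (q + 2)) => 4 ≤ i.val) Φ h ξ η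

theorem ac_iso_exists (p : EN q) (hp : p ∈ spherePairProd q) (hy : p (iy q) ∈ Ioo (-1 : ℝ) 1) :
    ∃ Φ : EN q ≃ₗᵢ[ℝ] EN q, Φ (acBase q (p (iy q))) = p ∧ (∀ X, Φ X (iy q) = X (iy q)) ∧
      (∀ ξ η, formU q (Φ ξ) (Φ η) = formU q ξ η) ∧ (∀ ξ η, formV q (Φ ξ) (Φ η) = formV q ξ η) := by
  obtain ⟨hp1, hp2⟩ := hp
  set y := p (iy q) with hydef
  have hρ : 0 < acRho y := acRho_pos hy
  have hρ2 : acRho y ^ 2 = 1 - y ^ 2 := acRho_sq hy
  let a₁ : EN q := EuclideanSpace.single (ac0 q) 1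
  let b₁ : EN q := WithLp.toLp 2 fun i => if i.val < 3 then p i else 0
  let a₂ : EN q := EuclideanSpace.single (ac4 q) (acRho y)
  let b₂ : EN q := WithLp.toLp 2 fun i => if 4 ≤ i.val then p i else 0
  let e : EN q := EuclideanSpace.single (iy q) y
  have hb1 : ∀ i, b₁ i = if i.val < 3 then p i else 0 := fun i => rfl
  have hb2 : ∀ i, b₂ i = if 4 ≤ i.val then p i else 0 := fun i => rfl
  have hpdec : p = b₁ + e + b₂ := by
    ext i
    simp only [PiLp.add_apply, hb1, hb2, e, PiLp.single_apply]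
    by_cases h1 : i.val < 3
    · have h2 : ¬ 4 ≤ i.val := by omega
      have h3 : i ≠ iy q := by
        intro h
        rw [h] at h1
        simp [iy] at h1
      simp [h1, h2, h3]
    · by_cases h2 : 4 ≤ i.val
      · have h3 : i ≠ iy q := by
          intro h
          rw [h] at h2
          simp [iy] at h2
        simp [h1, h2, h3]
      · have h3 : i = iy q := by
          apply Fin.ext
          simp only [iy]
          omega
        subst h3
        simp [iy, hydef]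
  have n1 : ‖a₁‖ = ‖b₁‖ := by
    have hb : ‖b₁‖ ^ 2 = 1 := by
      rw [EuclideanSpace.norm_sq_eq]
      simp only [hb1, Real.norm_eq_abs, sq_abs]
      rw [← hp1, Finset.sum_filter]
      refine Finset.sum_congr rfl fun i _ => ?_
      split_ifs <;> simp
    have hb' : ‖b₁‖ = 1 := by
      have h0 : 0 ≤ ‖b₁‖ := norm_nonneg _
      nlinarith
    rw [hb']
    simp [a₁]
  have n2 : ‖a₂‖ = ‖b₂‖ := by
    have hb : ‖b₂‖ ^ 2 = acRho y ^ 2 := by
      rw [EuclideanSpace.norm_sq_eq, hρ2]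
      simp only [hb2, Real.norm_eq_abs, sq_abs]
      have h := iso_sum_split q (fun i => p i ^ 2)
      rw [hp2] at h
      have h' : ∑ i : Fin (3 + (q + 2)), (if 4 ≤ i.val then p i else 0) ^ 2 =
          ∑ i : Fin (3 + (q + 2)) with 4 ≤ i.val, p i ^ 2 := by
        rw [Finset.sum_filter]
        refine Finset.sum_congr rfl fun i _ => ?_
        split_ifs <;> simp
      rw [h']
      simp only at h
      linarith
    have ha : ‖a₂‖ = acRho y := by
      simp [a₂, abs_of_pos hρ]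
    rw [ha]
    have h0 : 0 ≤ ‖b₂‖ := norm_nonneg _
    nlinarith
  obtain ⟨Φ₁, h11, h12⟩ := ac_refl (fun i : Fin (3 + (q + 2)) => i.val < 3) a₁ b₁ n1
    (fun i hi => by
      have : i ≠ ac0 q := by
        intro h
        rw [h] at hi
        simp [ac0] at hi
      simp [a₁, this])
    (fun i hi => by simp [hb1, hi])
  obtain ⟨Φ₂, h21, h22⟩ := ac_refl (fun i : Fin (3 + (q + 2)) => 4 ≤ i.val) a₂ b₂ n2
    (fun i hi => by
      have : i ≠ ac4 q := by
        intro h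
        rw [h] at hi
        simp [ac4] at hi
      simp [a₂, this])
    (fun i hi => by simp [hb2, hi])
  obtain ⟨y1, u1, v1⟩ := iso_props1 q Φ₁ h12
  obtain ⟨y2, u2, v2⟩ := iso_props2 q Φ₂ h22
  have f1e : Φ₁ e = e := ac_iso_fix _ Φ₁ h12 e (fun i hi => by
    have : i ≠ iy q := by
      intro h
      rw [h] at hi
      simp [iy] at hi
    simp [e, this])
  have f1a : Φ₁ a₂ = a₂ := ac_iso_fix _ Φ₁ h12 a₂ (fun i hi => by
    have : i ≠ ac4 q := by
      intro h
      rw [h] at hi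
      simp [ac4] at hi
    simp [a₂, this])
  have f2e : Φ₂ e = e := ac_iso_fix _ Φ₂ h22 e (fun i hi => by
    have : i ≠ iy q := by
      intro h
      rw [h] at hi
      simp [iy] at hi
    simp [e, this])
  have f2b : Φ₂ b₁ = b₁ := ac_iso_fix _ Φ₂ h22 b₁ (fun i hi => by
    have : ¬ i.val < 3 := by
      have : 4 ≤ i.val := hi
      omega
    simp [hb1, this])
  refine ⟨Φ₁.trans Φ₂, ?_, fun X => ?_, fun ξ η => ?_, fun ξ η => ?_⟩
  · show Φ₂ (Φ₁ (a₁ + e + a₂)) = p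
    have e1 : Φ₁ (a₁ + e + a₂) = b₁ + e + a₂ := by
      rw [map_add, map_add, h11, f1e, f1a]
    have e2 : Φ₂ (b₁ + e + a₂) = b₁ + e + b₂ := by
      rw [map_add, map_add, f2b, f2e, h21]
    rw [e1, e2]
    exact hpdec.symm
  · show Φ₂ (Φ₁ X) (iy q) = X (iy q)
    rw [y2, y1]
  · show formU q (Φ₂ (Φ₁ ξ)) (Φ₂ (Φ₁ η)) = formU q ξ η
    rw [u2, u1]
  · show formV q (Φ₂ (Φ₁ ξ)) (Φ₂ (Φ₁ η)) = formV q ξ η
    rw [v2, v1]

theorem ac_iso_mem (Φ : EN q ≃ₗᵢ[ℝ] EN q) (hU : ∀ ξ η, formU q (Φ ξ) (Φ η) = formU q ξ η)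
    (hV : ∀ ξ η, formV q (Φ ξ) (Φ η) = formV q ξ η) (X : EN q) :
    Φ X ∈ spherePairProd q ↔ X ∈ spherePairProd q := by
  have key : ∀ Z : EN q, Z ∈ spherePairProd q ↔ formU q Z Z = 1 ∧ formV q Z Z = 1 := by
    intro Z
    rw [formU_apply, formV_apply]
    simp only [spherePairProd, Set.mem_ofPred_eq, sq]
  rw [key, key, hU, hV]

end Claimed.Agent.R324
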