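/-
Row 324, module G, part A, leaf Kap1 (architect helper427): `acKap` is a left inverse of the standard chart.
PROOF.  `ext j`; `acKap q X j` is the `if` of the definition (`rfl`/`simp [acKap]`), `acChi q x i = acCo q x i` (`rfl`).  `rcases ac_cases' q j` (`j = 0`, `cZ q j`, `cW q j`; evaluate the `if`s with `cZ`/`cW` unfolded, `omega`).
 * `j = 0`: `acCo_iy`.
 * `cZ q j`: `2 (ρ (s x_j)) / (ρ + ρ t) = x_j` since `ρ + ρ t = ρ (1 + t) = 2 ρ s` (`acCo_iy, acCo_ac4, acCo_emZ, dgSph_one_add (cZ q) x`), `ρ > 0` (`acRho_pos hx`), `s > 0` (`dgS_pos`); `field_simp`.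
 * `cW q j`: `2 (s x_j) / (1 + t) = x_j` (`acCo_ac0, acCo_emW, dgSph_one_add (cW q) x`).
-/
import Claimed.Agent.R324.Geo.A.Sph1
import Claimed.Agent.R324.Geo.A.Idx
import Claimed.Agent.R324.Geo.A.Rho
import Claimed.Agent.R324.Geo.D.S

set_option autoImplicit false

namespace Claimed.Agent.R324

open Set Claims.C0510
open scoped ContDiff

variable (q : ℕ)

theorem kap1_acChi_apply (x : Ed q) (i : Fin (3 + (q + 2))) : acChi q x i = acCo q x i := rfl

theorem kap1_acKap_apply (X : EN q) (j : Fin (q + 3)) :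
    acKap q X j = if j.val = 0 then X (iy q)
      else if j.val ≤ q then 2 * X (acEm q j) / (acRho (X (iy q)) + X (ac4 q))
      else 2 * X (acEm q j) / (1 + X (ac0 q)) := rfl

theorem acKap_acChi {x : Ed q} (hx : x ∈ adW q) : acKap q (acChi q x) = x := by
  have hx0 : x 0 ∈ Ioo (-1 : ℝ) 1 := hx
  have hρ := acRho_pos hx0
  ext j
  rw [kap1_acKap_apply]
  simp only [kap1_acChi_apply]
  rcases ac_cases' q j with h0 | hZ | hW
  · subst h0
    rw [if_pos (Fin.val_zero _), acCo_iy]
  · have hs := dgS_pos (cZ q) x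
    have h1 := dgSph_one_add (cZ q) x
    have hZ' := hZ
    unfold cZ at hZ'
    rw [if_neg (by omega), if_pos hZ'.2, acCo_iy, acCo_ac4, acCo_emZ q x hZ]
    have e : acRho (x 0) + acRho (x 0) * dgT (cZ q) x = acRho (x 0) * (2 * dgS (cZ q) x) := by
      rw [← h1]; ring
    rw [e]
    field_simp
  · have hs := dgS_pos (cW q) x
    have h1 := dgSph_one_add (cW q) x
    have hW' := hW
    unfold cW at hW'
    rw [if_neg (by omega), if_neg (by omega), acCo_ac0, acCo_emW q x hW, h1]
    field_simp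

end Claimed.Agent.R324
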