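/-
Row 324, module G, part A, leaf Kap2 (architect helper427): `acKap` is a right inverse of the standard chart on `S^2 x S^(q+1) ∩ acV q`.
PROOFS.  Let `x = acKap q X`, `r = X (iy q)`, `ρ = acRho r > 0`.  `x 0 = r` (definition of `acKap`, `simp [acKap]`), so `x ∈ adW q` by `hV.1`.
 Coordinates of `x`: for `cW q j`: `x j = 2 * X (acEm q j) / (1 + X (ac0 q))`;  for `cZ q j`: `x j = 2 * X (acEm q j) / (ρ + X (ac4 q))` (evaluate the `if`s, `cZ, cW` unfolded, `omega`).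
 * `S^2`: `dgSph_inv (cW q) x (X (ac0 q)) (fun j => X (acEm q j))`; hypothesis `h1` = first equation of `hM` rewritten by `ac_sumU q (fun i => X i ^ 2)`.
   Gives `dgT (cW q) x = X (ac0 q)`, `dgS (cW q) x * x j = X (acEm q j)`.
 * `S^q`: `dgSph_inv (cZ q) x (X (ac4 q) / ρ) (fun j => X (acEm q j) / ρ)`; `h1`: second equation of `hM` by `ac_sumV`: `r^2 + X_4^2 + ∑ X_{em j}^2 = 1`, divide by `ρ^2 = 1 - r^2` (`acRho_sq`; `div_pow`, `← Finset.sum_div`);
   `hT`: `1 + X_4/ρ = (ρ + X_4)/ρ > 0`; `hx`: `2 X_{em j}/(ρ + X_4) = 2 (X_{em j}/ρ)/(1 + X_4/ρ)` (`field_simp`).   Gives `ρ * dgT (cZ q) x = X (ac4 q)`, `ρ * (dgS (cZ q) x * x j) = X (acEm q j)`.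
 * conclusion: `ext i`, `rcases ac_cases q i`, `acCo_ac0, acCo_iy, acCo_ac4, acCo_emW, acCo_emZ`.
-/
import Claimed.Agent.R324.Geo.A.Sph1
import Claimed.Agent.R324.Geo.A.Idx
import Claimed.Agent.R324.Geo.A.Rho

set_option autoImplicit false

namespace Claimed.Agent.R324

open Set Claims.C0510
open scoped ContDiff

variable (q : ℕ)

theorem kap2_zero (X : EN q) : acKap q X 0 = X (iy q) := by
  simp [acKap]

theorem kap2_W (X : EN q) {j : Fin (q + 3)} (hj : cW q j) :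
    acKap q X j = 2 * X (acEm q j) / (1 + X (ac0 q)) := by
  unfold cW at hj
  show (if j.val = 0 then X (iy q)
    else if j.val ≤ q then 2 * X (acEm q j) / (acRho (X (iy q)) + X (ac4 q))
    else 2 * X (acEm q j) / (1 + X (ac0 q))) = _
  rw [if_neg (by omega), if_neg (by omega)]

theorem kap2_Z (X : EN q) {j : Fin (q + 3)} (hj : cZ q j) :
    acKap q X j = 2 * X (acEm q j) / (acRho (X (iy q)) + X (ac4 q)) := by
  unfold cZ at hj
  show (if j.val = 0 then X (iy q)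
    else if j.val ≤ q then 2 * X (acEm q j) / (acRho (X (iy q)) + X (ac4 q))
    else 2 * X (acEm q j) / (1 + X (ac0 q))) = _
  rw [if_neg (by omega), if_pos (by omega)]

theorem acKap_mem {X : EN q} (hV : X ∈ acV q) : acKap q X ∈ adW q := by
  show acKap q X 0 ∈ Ioo (-1 : ℝ) 1
  rw [kap2_zero]
  exact hV.1

theorem acChi_acKap {X : EN q} (hM : X ∈ spherePairProd q) (hV : X ∈ acV q) :
    acChi q (acKap q X) = X := by
  obtain ⟨hr, h0, h4⟩ := hV
  obtain ⟨hM1, hM2⟩ := hM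
  have hρ := acRho_pos hr
  have hρ2 := acRho_sq hr
  rw [ac_sumU q (fun i => X i ^ 2)] at hM1
  rw [ac_sumV q (fun i => X i ^ 2)] at hM2
  obtain ⟨-, hW1, hW2⟩ := dgSph_inv (cW q) (acKap q X) (X (ac0 q)) (fun j => X (acEm q j)) hM1 h0
    (fun j hj => kap2_W q X hj)
  have hZ := dgSph_inv (cZ q) (acKap q X) (X (ac4 q) / acRho (X (iy q)))
    (fun j => X (acEm q j) / acRho (X (iy q))) ?_ ?_ ?_
  · obtain ⟨-, hZ1, hZ2⟩ := hZ
    ext i
    show acCo q (acKap q X) i = X i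
    rcases ac_cases q i with rfl | rfl | rfl | ⟨j, hj, rfl⟩ | ⟨j, hj, rfl⟩
    · rw [acCo_ac0, hW1]
    · rw [acCo_iy, kap2_zero]
    · rw [acCo_ac4, hZ1, kap2_zero]
      field_simp
    · rw [acCo_emW q _ hj, hW2 j hj]
    · rw [acCo_emZ q _ hj, hZ2 j hj, kap2_zero]
      field_simp
  · simp only [div_pow]
    rw [← Finset.sum_div, ← add_div, hρ2, div_eq_one_iff_eq (by rw [← hρ2]; positivity)]
    linarith
  · have : 1 + X (ac4 q) / acRho (X (iy q)) = (acRho (X (iy q)) + X (ac4 q)) / acRho (X (iy q)) := by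
      field_simp
    rw [this]
    positivity
  · intro j hj
    rw [kap2_Z q X hj]
    have h5 := h4.ne'
    field_simp

end Claimed.Agent.R324
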