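/-
Row 324, module G, part A, leaf KapC (architect helper427): `acV q` is open, `acKap q` is continuous on it.
PROOFS.  Coordinates `X ↦ X i` are continuous (`(EuclideanSpace.proj i).continuous`, or `continuous_apply i |>.comp (PiLp.continuous_ofLp ..)`, or `by fun_prop`); `acRho_continuous` (Rho).
 * `acV_isOpen`: `acV q` is the intersection of the preimage of `Ioo (-1) 1` and two sets `{X | 0 < f X}` with `f` continuous (`isOpen_lt continuous_const hf`); `IsOpen.inter`.
 * `acKap_continuousOn`: a map into `EuclideanSpace` is continuous iff its coordinates are (`continuousOn_pi`-type statement: use `(PiLp.continuous_toLp 2 _).comp_continuousOn (continuousOn_pi.mpr ..)`);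
   each coordinate: `split_ifs` on the index, `ContinuousOn.div` with denominators `≠ 0` on `acV q` (`ne_of_gt hX.2.1`, `ne_of_gt hX.2.2`).
-/
import Claimed.Agent.R324.Geo.A.Rho

set_option autoImplicit false

namespace Claimed.Agent.R324

open Set Claims.C0510
open scoped ContDiff

variable (q : ℕ)

theorem kapC_coord_continuous (i : Fin (3 + (q + 2))) : Continuous fun X : EN q => X i :=
  (EuclideanSpace.proj i).continuous

theorem acV_isOpen : IsOpen (acV q) := by
  have h1 : IsOpen {X : EN q | X (iy q) ∈ Ioo (-1 : ℝ) 1} :=
    isOpen_Ioo.preimage (kapC_coord_continuous q (iy q))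
  have h2 : IsOpen {X : EN q | 0 < 1 + X (ac0 q)} :=
    isOpen_lt continuous_const (continuous_const.add (kapC_coord_continuous q (ac0 q)))
  have h3 : IsOpen {X : EN q | 0 < acRho (X (iy q)) + X (ac4 q)} :=
    isOpen_lt continuous_const
      ((acRho_continuous.comp (kapC_coord_continuous q (iy q))).add
        (kapC_coord_continuous q (ac4 q)))
  exact h1.inter (h2.inter h3)

theorem acKap_continuousOn : ContinuousOn (acKap q) (acV q) := by
  unfold acKap
  refine (PiLp.continuous_toLp 2 _).comp_continuousOn (continuousOn_pi.mpr fun j => ?_)
  split_ifs with h0 h1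
  · exact (kapC_coord_continuous q (iy q)).continuousOn
  · refine ContinuousOn.div
      (continuous_const.mul (kapC_coord_continuous q (acEm q j))).continuousOn
      ((acRho_continuous.comp (kapC_coord_continuous q (iy q))).add
        (kapC_coord_continuous q (ac4 q))).continuousOn fun X hX => ne_of_gt hX.2.2
  · refine ContinuousOn.div
      (continuous_const.mul (kapC_coord_continuous q (acEm q j))).continuousOn
      (continuous_const.add (kapC_coord_continuous q (ac0 q))).continuousOn
      fun X hX => ne_of_gt hX.2.1

end Claimed.Agent.R324
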