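/-
Row 324, module G, part A, leaf Sph3 (architect helper427): the inverse stereographic projection is conformal with factor `s^2`; the position vector is orthogonal to the derivatives.
PROOFS.  Rewrite with `dgT_pdiff, dgSx_pdiff` (Sph2).  Write `s = dgS c x`, `n = dgN c x = ∑_{c j} x_j^2`, and recall `s (1 + n/4) = 1` (`dgS_eq`, `dgN_nonneg`, `field_simp`).
 * `dgSph_metric`.  If `¬ c k`: `∂_k t = 0` and for `c j`: `∂_k (s x_j) = [k = j] s = 0` since `k ≠ j`; so LHS `= 0` (`Finset.sum_eq_zero`); same if `¬ c l`.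
   If `c k`, `c l`:  `∑_{c j} (-(x_k/2) s^2 x_j + [k=j] s) (-(x_l/2) s^2 x_j + [l=j] s) = (x_k x_l/4) s^4 n - x_k x_l s^3 + [k=l] s^2`
   (expand the product, `Finset.sum_add_distrib`, `Finset.sum_ite_eq` on the filtered set, `← Finset.mul_sum`), and `∂_k t ∂_l t = s^4 x_k x_l`.
   Total `= [k=l] s^2 + x_k x_l s^3 (s n/4 - 1 + s) = [k=l] s^2`.
 * `dgSph_orth`.  `c k`: `t (-s^2 x_k) + ∑ s x_j (-(x_k/2) s^2 x_j + [k=j] s) = s^2 x_k (1 - t - s n/2) = s^2 x_k (1 - s (1 + n/4)) = 0`.  `¬ c k`: all terms vanish.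
-/
import Claimed.Agent.R324.Geo.A.Sph2

set_option autoImplicit false

namespace Claimed.Agent.R324

open Set Claims.C0510
open scoped ContDiff

variable {d : ℕ} (c : Fin d → Prop) [DecidablePred c]

theorem sph3_sum_prod {ι : Type*} [DecidableEq ι] (F : Finset ι) {k l : ι} (hk : k ∈ F) (hl : l ∈ F)
    (x : ι → ℝ) (a b s : ℝ) :
    ∑ j ∈ F, (a * x j + if k = j then s else 0) * (b * x j + if l = j then s else 0)
      = a * b * ∑ j ∈ F, x j ^ 2 + a * s * x l + b * s * x k + if k = l then s ^ 2 else 0 := by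
  have e : ∀ j, (a * x j + if k = j then s else 0) * (b * x j + if l = j then s else 0)
      = a * b * x j ^ 2 + (if l = j then a * s * x j else 0) + (if k = j then b * s * x j else 0)
        + (if k = j then (if l = j then s ^ 2 else 0) else 0) := by
    intro j
    split_ifs <;> ring
  simp_rw [e]
  rw [Finset.sum_add_distrib, Finset.sum_add_distrib, Finset.sum_add_distrib, Finset.sum_ite_eq,
    Finset.sum_ite_eq, Finset.sum_ite_eq, if_pos hk, if_pos hl, ← Finset.mul_sum]
  congr 1
  by_cases h : k = l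
  · rw [if_pos h, if_pos h.symm, if_pos hk]
  · rw [if_neg h, if_neg (Ne.symm h), if_pos hk]

theorem sph3_sum_orth {ι : Type*} [DecidableEq ι] (F : Finset ι) {k : ι} (hk : k ∈ F)
    (x : ι → ℝ) (a s : ℝ) :
    ∑ j ∈ F, (s * x j) * (a * x j + if k = j then s else 0)
      = s * a * ∑ j ∈ F, x j ^ 2 + s ^ 2 * x k := by
  have e : ∀ j, (s * x j) * (a * x j + if k = j then s else 0)
      = s * a * x j ^ 2 + (if k = j then s ^ 2 * x j else 0) := by
    intro j
    split_ifs <;> ring
  simp_rw [e]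
  rw [Finset.sum_add_distrib, Finset.sum_ite_eq, if_pos hk, ← Finset.mul_sum]

theorem sph3_S_mul (x : EuclideanSpace ℝ (Fin d)) : dgS c x * (1 + dgN c x / 4) = 1 := by
  have h := dgN_nonneg c x
  rw [dgS_eq]
  field_simp

/-- the derivative in a direction which is not of class `c` vanishes. -/
theorem sph3_Sx_pdiff_zero {j k : Fin d} (hj : c j) (hk : ¬ c k) (x : EuclideanSpace ℝ (Fin d)) :
    pdiff (fun w => dgS c w * w j) k x = 0 := by
  have hkj : k ≠ j := fun h => hk (h ▸ hj)
  rw [dgSx_pdiff, if_neg hk, if_neg hkj, add_zero]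

theorem dgSph_metric (k l : Fin d) (x : EuclideanSpace ℝ (Fin d)) :
    pdiff (dgT c) k x * pdiff (dgT c) l x
      + ∑ j : Fin d with c j,
          pdiff (fun w => dgS c w * w j) k x * pdiff (fun w => dgS c w * w j) l x =
      if c k ∧ k = l then dgS c x ^ 2 else 0 := by
  by_cases hk : c k
  · by_cases hl : c l
    · have hkF : k ∈ Finset.univ.filter c := Finset.mem_filter.2 ⟨Finset.mem_univ _, hk⟩
      have hlF : l ∈ Finset.univ.filter c := Finset.mem_filter.2 ⟨Finset.mem_univ _, hl⟩
      have hS := sph3_S_mul c x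
      simp_rw [dgT_pdiff, dgSx_pdiff, if_pos hk, if_pos hl]
      rw [sph3_sum_prod (Finset.univ.filter c) hkF hlF (fun j => x j)]
      have hn : ∑ j ∈ Finset.univ.filter c, x j ^ 2 = dgN c x := rfl
      rw [hn]
      have e : (if c k ∧ k = l then dgS c x ^ 2 else 0) = if k = l then dgS c x ^ 2 else 0 := by
        by_cases h : k = l
        · rw [if_pos ⟨hk, h⟩, if_pos h]
        · rw [if_neg (fun h' => h h'.2), if_neg h]
      rw [e]
      generalize (if k = l then dgS c x ^ 2 else 0) = D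
      generalize dgS c x = s at hS
      generalize dgN c x = n at hS
      linear_combination (x k * x l * s ^ 3) * hS
    · rw [dgT_pdiff c l, if_neg hl, mul_zero, zero_add, if_neg (fun h : c k ∧ k = l => hl (h.2 ▸ h.1))]
      refine Finset.sum_eq_zero fun j hj => ?_
      rw [sph3_Sx_pdiff_zero c (Finset.mem_filter.1 hj).2 hl, mul_zero]
  · rw [dgT_pdiff c k, if_neg hk, zero_mul, zero_add, if_neg (fun h : c k ∧ k = l => hk h.1)]
    refine Finset.sum_eq_zero fun j hj => ?_
    rw [sph3_Sx_pdiff_zero c (Finset.mem_filter.1 hj).2 hk, zero_mul]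

theorem dgSph_orth (k : Fin d) (x : EuclideanSpace ℝ (Fin d)) :
    dgT c x * pdiff (dgT c) k x
      + ∑ j : Fin d with c j, (dgS c x * x j) * pdiff (fun w => dgS c w * w j) k x = 0 := by
  by_cases hk : c k
  · have hkF : k ∈ Finset.univ.filter c := Finset.mem_filter.2 ⟨Finset.mem_univ _, hk⟩
    have hS := sph3_S_mul c x
    simp_rw [dgT_pdiff, dgSx_pdiff, if_pos hk]
    rw [sph3_sum_orth (Finset.univ.filter c) hkF (fun j => x j)]
    have hn : ∑ j ∈ Finset.univ.filter c, x j ^ 2 = dgN c x := rfl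
    rw [hn]
    unfold dgT
    generalize dgS c x = s at hS
    generalize dgN c x = n at hS
    linear_combination (-(x k * s ^ 2)) * hS
  · rw [dgT_pdiff c k, if_neg hk, mul_zero, zero_add]
    refine Finset.sum_eq_zero fun j hj => ?_
    rw [sph3_Sx_pdiff_zero c (Finset.mem_filter.1 hj).2 hk, mul_zero]

end Claimed.Agent.R324
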