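/-
Row 324, module G, part A, leaf MetU (architect helper427): the forms `formU`, `formY` on the coordinate vector fields of the standard chart.
PROOFS.  * `ac_metU`: `formU_apply` (Geo/Form), `acChi_fderiv_apply` (ChiSm) for every component, `ac_sumU` (Idx) with `f i = pdiff (fun w => acCo q w i) k x * pdiff (fun w => acCo q w i) l x`;
   `(fun w => acCo q w (ac0 q)) = dgT (cW q)` (`funext`, `acCo_ac0`), and for `cW q j`: `(fun w => acCo q w (acEm q j)) = fun w => dgS (cW q) w * w j` (`funext`, `acCo_emW`), inside the sum via `Finset.sum_congr rfl` + `(Finset.mem_filter.mp hj).2`;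
   conclude with `dgSph_metric (cW q) k l x` (Sph3).
 * `ac_metY`: `formY_apply`, `acChi_fderiv_apply`, `(fun w => acCo q w (iy q)) = fun w => w 0` (`acCo_iy`), `dgPd_coord`; `split_ifs`/`by_cases`.
-/
import Claimed.Agent.R324.Geo.A.Sph3
import Claimed.Agent.R324.Geo.A.Idx
import Claimed.Agent.R324.Geo.A.ChiSm
import Claimed.Agent.R324.Geo.Form

set_option autoImplicit false

namespace Claimed.Agent.R324

open Set Claims.C0510
open scoped ContDiff

variable (q : ℕ)

theorem ac_metU {x : Ed q} (hx : x ∈ adW q) (k l : Fin (q + 3)) :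
    formU q (fderiv ℝ (acChi q) x (EuclideanSpace.single k 1))
        (fderiv ℝ (acChi q) x (EuclideanSpace.single l 1)) =
      if cW q k ∧ k = l then dgS (cW q) x ^ 2 else 0 := by
  rw [formU_apply]
  simp only [acChi_fderiv_apply q hx]
  rw [ac_sumU q (fun i => pdiff (fun w => acCo q w i) k x * pdiff (fun w => acCo q w i) l x)]
  have h0 : (fun w => acCo q w (ac0 q)) = dgT (cW q) := funext fun w => acCo_ac0 q w
  have h1 : ∑ j : Fin (q + 3) with cW q j,
        pdiff (fun w => acCo q w (acEm q j)) k x * pdiff (fun w => acCo q w (acEm q j)) l x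
      = ∑ j : Fin (q + 3) with cW q j,
        pdiff (fun w => dgS (cW q) w * w j) k x * pdiff (fun w => dgS (cW q) w * w j) l x := by
    refine Finset.sum_congr rfl fun j hj => ?_
    have hj' : cW q j := (Finset.mem_filter.mp hj).2
    have h2 : (fun w => acCo q w (acEm q j)) = fun w => dgS (cW q) w * w j :=
      funext fun w => acCo_emW q w hj'
    rw [h2]
  rw [h0, h1]
  exact dgSph_metric (cW q) k l x

theorem ac_metY {x : Ed q} (hx : x ∈ adW q) (k l : Fin (q + 3)) :
    formY q (fderiv ℝ (acChi q) x (EuclideanSpace.single k 1))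
        (fderiv ℝ (acChi q) x (EuclideanSpace.single l 1)) =
      if k = 0 ∧ l = 0 then 1 else 0 := by
  rw [formY_apply, acChi_fderiv_apply q hx, acChi_fderiv_apply q hx]
  have h0 : (fun w => acCo q w (iy q)) = fun w : Ed q => w 0 := funext fun w => acCo_iy q w
  rw [h0, dgPd_coord, dgPd_coord]
  by_cases hk : k = 0 <;> by_cases hl : l = 0 <;> simp [hk, hl]

end Claimed.Agent.R324
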