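/-
Row 324, module G, part A, leaf MetV (architect helper427): the form `formV` on the coordinate vector fields of the standard chart.
PROOF.  `formV_apply` (Geo/Form), `acChi_fderiv_apply` (ChiSm), `ac_sumV` (Idx) with `f i = pdiff (fun w => acCo q w i) k x * pdiff (fun w => acCo q w i) l x`.
 Functions: `(fun w => acCo q w (iy q)) = fun w => w 0`, `(fun w => acCo q w (ac4 q)) = fun w => acRho (w 0) * dgT (cZ q) w`, and for `cZ q j`: `(fun w => acCo q w (acEm q j)) = fun w => acRho (w 0) * (dgS (cZ q) w * w j)` (`funext` + `acCo_*`).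
 Derivatives: `dgPd_coord`, and `acRho_mul_pdiff q hx (differentiability) k` (Rho): `∂_k (ρ f) = [k=0] ρ' f + ρ ∂_k f`, `ρ' = -r/ρ`  (differentiability from `dgT_contDiff`, `dgSx_contDiff`: `.differentiable (by simp) x`).
 Write `t = dgT (cZ q) x`, `Y_j = dgS (cZ q) x * x j`, `a_k = [k=0] ρ'`.  Then
   `∑ = [k=0][l=0] + (a_k t + ρ ∂_k t)(a_l t + ρ ∂_l t) + ∑_j (a_k Y_j + ρ ∂_k Y_j)(a_l Y_j + ρ ∂_l Y_j)`
     `= [k=0][l=0] + a_k a_l (t^2 + ∑ Y_j^2) + ρ a_k (t ∂_l t + ∑ Y_j ∂_l Y_j) + ρ a_l (t ∂_k t + ∑ Y_j ∂_k Y_j) + ρ^2 (∂_k t ∂_l t + ∑ ∂_k Y_j ∂_l Y_j)`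
     `= [k=0][l=0] (1 + ρ'^2) + 0 + 0 + ρ^2 [cZ k ∧ k = l] s^2`
 by `dgSph_norm` (Sph1), `dgSph_orth`, `dgSph_metric` (Sph3)  (expand with `Finset.sum_add_distrib`, `Finset.mul_sum`; a clean way: state the expansion as an identity `∑ (a Y_j + ρ P_j)(b Y_j + ρ Q_j) = a b ∑ Y_j^2 + ρ a ∑ Y_j Q_j + ρ b ∑ Y_j P_j + ρ^2 ∑ P_j Q_j`).
 Finally `1 + ρ'^2 = 1 + r^2/ρ^2 = 1/(1-r^2)` and `ρ^2 = 1 - r^2` (`acRho_sq`, `acRho_pos`).
-/
import Claimed.Agent.R324.Geo.A.Sph3
import Claimed.Agent.R324.Geo.A.Idx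
import Claimed.Agent.R324.Geo.A.ChiSm
import Claimed.Agent.R324.Geo.Form

set_option autoImplicit false

namespace Claimed.Agent.R324

open Set Claims.C0510
open scoped ContDiff

variable (q : ℕ)

/-- expansion of the sum of products. -/
theorem metV_expand {ι : Type*} (s : Finset ι) (a b ρ : ℝ) (Y P Q : ι → ℝ) :
    ∑ j ∈ s, (a * Y j + ρ * P j) * (b * Y j + ρ * Q j)
      = a * b * ∑ j ∈ s, Y j ^ 2 + ρ * a * ∑ j ∈ s, Y j * Q j + ρ * b * ∑ j ∈ s, Y j * P j
        + ρ ^ 2 * ∑ j ∈ s, P j * Q j := by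
  simp only [Finset.mul_sum, ← Finset.sum_add_distrib]
  exact Finset.sum_congr rfl fun j _ => by ring

theorem ac_metV {x : Ed q} (hx : x ∈ adW q) (k l : Fin (q + 3)) :
    formV q (fderiv ℝ (acChi q) x (EuclideanSpace.single k 1))
        (fderiv ℝ (acChi q) x (EuclideanSpace.single l 1)) =
      (if k = 0 ∧ l = 0 then 1 / (1 - x 0 ^ 2) else 0)
        + (if cZ q k ∧ k = l then (1 - x 0 ^ 2) * dgS (cZ q) x ^ 2 else 0) := by
  have hr : x 0 ∈ Ioo (-1 : ℝ) 1 := hx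
  have hρ := acRho_pos hr
  have hρ2 := acRho_sq hr
  rw [formV_apply]
  simp only [acChi_fderiv_apply q hx]
  rw [ac_sumV q (fun i => pdiff (fun w => acCo q w i) k x * pdiff (fun w => acCo q w i) l x)]
  have e1 : (fun w : Ed q => acCo q w (iy q)) = fun w => w 0 := funext fun w => acCo_iy q w
  have e2 : (fun w : Ed q => acCo q w (ac4 q)) = fun w => acRho (w 0) * dgT (cZ q) w :=
    funext fun w => acCo_ac4 q w
  have e3 : ∀ j, cZ q j → (fun w : Ed q => acCo q w (acEm q j))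
      = fun w => acRho (w 0) * (dgS (cZ q) w * w j) :=
    fun j hj => funext fun w => acCo_emZ q w hj
  have dT : DifferentiableAt ℝ (dgT (cZ q)) x := (dgT_contDiff (cZ q)).differentiable (by simp) x
  have dY : ∀ j, DifferentiableAt ℝ (fun w : Ed q => dgS (cZ q) w * w j) x :=
    fun j => (dgSx_contDiff (cZ q) j).differentiable (by simp) x
  have p1 : ∀ k, pdiff (fun w : Ed q => acCo q w (iy q)) k x = if k = 0 then 1 else 0 := by
    intro k
    rw [e1, dgPd_coord]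
  have p2 : ∀ k, pdiff (fun w : Ed q => acCo q w (ac4 q)) k x
      = (if k = 0 then -(x 0) / acRho (x 0) else 0) * dgT (cZ q) x
        + acRho (x 0) * pdiff (dgT (cZ q)) k x := by
    intro k
    rw [e2]
    exact acRho_mul_pdiff q hx dT k
  have p3 : ∀ j, cZ q j → ∀ k, pdiff (fun w : Ed q => acCo q w (acEm q j)) k x
      = (if k = 0 then -(x 0) / acRho (x 0) else 0) * (dgS (cZ q) x * x j)
        + acRho (x 0) * pdiff (fun w => dgS (cZ q) w * w j) k x := by
    intro j hj k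
    rw [e3 j hj]
    exact acRho_mul_pdiff q hx (dY j) k
  have hsum : ∑ j : Fin (q + 3) with cZ q j,
        pdiff (fun w : Ed q => acCo q w (acEm q j)) k x * pdiff (fun w : Ed q => acCo q w (acEm q j)) l x
      = ∑ j : Fin (q + 3) with cZ q j,
        ((if k = 0 then -(x 0) / acRho (x 0) else 0) * (dgS (cZ q) x * x j)
          + acRho (x 0) * pdiff (fun w => dgS (cZ q) w * w j) k x) *
        ((if l = 0 then -(x 0) / acRho (x 0) else 0) * (dgS (cZ q) x * x j)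
          + acRho (x 0) * pdiff (fun w => dgS (cZ q) w * w j) l x) :=
    Finset.sum_congr rfl fun j hj => by
      rw [p3 j (Finset.mem_filter.1 hj).2 k, p3 j (Finset.mem_filter.1 hj).2 l]
  rw [hsum, metV_expand, p1, p1, p2, p2]
  have n1 := dgSph_norm (cZ q) x
  have ok := dgSph_orth (cZ q) k x
  have ol := dgSph_orth (cZ q) l x
  have m := dgSph_metric (cZ q) k l x
  generalize (∑ j : Fin (q + 3) with cZ q j, (dgS (cZ q) x * x j) ^ 2) = S2 at n1 ⊢
  generalize (∑ j : Fin (q + 3) with cZ q j,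
    (dgS (cZ q) x * x j) * pdiff (fun w => dgS (cZ q) w * w j) k x) = Sk at ok ⊢
  generalize (∑ j : Fin (q + 3) with cZ q j,
    (dgS (cZ q) x * x j) * pdiff (fun w => dgS (cZ q) w * w j) l x) = Sl at ol ⊢
  generalize (∑ j : Fin (q + 3) with cZ q j,
    pdiff (fun w => dgS (cZ q) w * w j) k x * pdiff (fun w => dgS (cZ q) w * w j) l x) = Sm at m ⊢
  generalize pdiff (dgT (cZ q)) k x = Tk at ok m ⊢
  generalize pdiff (dgT (cZ q)) l x = Tl at ol m ⊢
  generalize dgT (cZ q) x = t at n1 ok ol ⊢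
  generalize acRho (x 0) = ρ at hρ hρ2 ⊢
  have hm : (if cZ q k ∧ k = l then (1 - x 0 ^ 2) * dgS (cZ q) x ^ 2 else 0)
      = ρ ^ 2 * (Tk * Tl + Sm) := by
    rw [m, hρ2]
    split_ifs <;> ring
  rw [hm]
  have h1 : (1 : ℝ) - x 0 ^ 2 ≠ 0 := by rw [← hρ2]; positivity
  have hd : (if k = 0 ∧ l = 0 then 1 / (1 - x 0 ^ 2) else 0)
      = (if k = 0 then (1 : ℝ) else 0) * (if l = 0 then 1 else 0)
        + (if k = 0 then -(x 0) / ρ else 0) * (if l = 0 then -(x 0) / ρ else 0) := by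
    by_cases hk : k = 0
    · by_cases hl : l = 0
      · rw [if_pos ⟨hk, hl⟩, if_pos hk, if_pos hl, if_pos hk, if_pos hl, ← hρ2]
        field_simp
        linarith
      · rw [if_neg (fun h => hl h.2), if_neg hl, if_neg hl]
        ring
    · rw [if_neg (fun h => hk h.1), if_neg hk, if_neg hk]
      ring
  rw [hd]
  generalize (if k = 0 then -(x 0) / ρ else 0) = ak
  generalize (if l = 0 then -(x 0) / ρ else 0) = al
  linear_combination (ak * al) * n1 + ρ * ak * ol + ρ * al * ok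

end Claimed.Agent.R324
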