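/-
Row 324, module G, part A (helper427): the metric in the standard chart is `adG`.
-/
import Claimed.Agent.R324.Geo.A.MetU
import Claimed.Agent.R324.Geo.A.MetV

set_option autoImplicit false

namespace Claimed.Agent.R324

open Set Claims.C0510
open scoped ContDiff

variable (q : ℕ)

theorem acChi_iy (x : Ed q) : acChi q x (iy q) = x 0 := acCo_iy q x

theorem ac_coordMetric (A B C : ℝ → ℝ) {x : Ed q} (hx : x ∈ adW q) :
    coordMetric (ambS q A B C) (acChi q) x = adG q A B C x := by
  have h1 : (0 : ℝ) < 1 - x 0 ^ 2 := by
    have h := hx
    simp only [adW, Set.mem_ofPred_eq, Set.mem_Ioo] at h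
    nlinarith [h.1, h.2]
  ext k l
  rw [coordMetric_ambS_apply, ac_metU q hx, ac_metV q hx, ac_metY q hx, acChi_iy]
  unfold adG
  rw [Matrix.diagonal_apply]
  unfold adDiag
  rw [sZ_eq_dgS, sW_eq_dgS]
  rcases ac_cases' q k with hk | hk | hk
  · subst hk
    have nz : ¬ cZ q 0 := by simp [cZ]
    have nw : ¬ cW q 0 := by simp [cW]
    by_cases hl : (0 : Fin (q + 3)) = l
    · subst hl
      simp only [nz, nw, false_and, and_self, if_true, if_false, Fin.val_zero]
      field_simp
      ring
    · have hl' : ¬ l = 0 := fun h => hl h.symm
      simp only [nz, nw, hl, hl', and_false, if_false]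
      ring
  · have hk0 : k ≠ 0 := by
      intro h
      rw [h] at hk
      simp [cZ] at hk
    have hkv : ¬ k.val = 0 := by
      have := hk.1
      omega
    have nw : ¬ cW q k := by
      have := hk.2
      simp only [cW]
      omega
    by_cases hl : k = l
    · simp only [hk0, hk, nw, hl.symm, hkv, hk.2, false_and, and_self, if_true, if_false]
      ring
    · simp only [hk0, hl, false_and, and_false, if_false]
      ring
  · have hk0 : k ≠ 0 := by
      intro h
      rw [h] at hk
      simp [cW] at hk
    have hkq : q < k.val := hk
    have hkv : ¬ k.val = 0 := by omega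
    have hkv' : ¬ k.val ≤ q := by omega
    have nz : ¬ cZ q k := by
      simp only [cZ]
      omega
    by_cases hl : k = l
    · simp only [hk0, hk, nz, hl.symm, hkv, hkv', false_and, and_self, if_true, if_false]
      ring
    · simp only [hk0, hl, false_and, and_false, if_false]
      ring

end Claimed.Agent.R324
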