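/-
Row 324, module G, part A (helper427): the standard chart is a local parametrisation of `S^2 x S^(q+1)`.
-/
import Claimed.Agent.R324.Geo.A.Met
import Claimed.Agent.R324.Geo.A.Img
import Claimed.Agent.R324.Geo.A.Kap1
import Claimed.Agent.R324.Geo.A.Kap2
import Claimed.Agent.R324.Geo.A.KapC
import Claimed.Agent.R324.Geo.A.Inj
import Claimed.Agent.R324.Geo.D.AdJet

set_option autoImplicit false

namespace Claimed.Agent.R324

open Set Claims.C0510
open scoped ContDiff

variable (q : ℕ)

theorem acChi_injOn : InjOn (acChi q) (adW q) := by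
  intro x hx x' hx' h
  rw [← acKap_acChi q hx, ← acKap_acChi q hx', h]

theorem acChi_image : acChi q '' adW q = spherePairProd q ∩ acV q := by
  ext X
  constructor
  · rintro ⟨x, hx, rfl⟩
    exact ⟨acChi_mem q hx, acChi_mem_V q hx⟩
  · rintro ⟨hM, hV⟩
    exact ⟨acKap q X, acKap_mem q hV, acChi_acKap q hM hV⟩

theorem acChi_fderiv_injective {x : Ed q} (hx : x ∈ adW q) :
    Function.Injective (fderiv ℝ (acChi q) x) := by
  have hx' : x ∈ adOm q (fun _ => (1 : ℝ)) (fun _ => (0 : ℝ)) (fun _ => (1 : ℝ)) := by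
    refine ⟨hx, one_pos, ?_, one_pos⟩
    simp
  exact ac_fderiv_injective _ _ x _ (fun k => (adDiag_pos q hx' k).ne')
    (ac_coordMetric q (fun _ => (1 : ℝ)) (fun _ => (0 : ℝ)) (fun _ => (1 : ℝ)) hx)

theorem acChi_isLocalParam : IsLocalParam (spherePairProd q) (acChi q) (adW q) := by
  refine ⟨adW_isOpen q, acChi_contDiffOn q, fun u hu => acChi_fderiv_injective q hu,
    acChi_injOn q, ⟨acV q, acV_isOpen q, acChi_image q⟩, ?_⟩
  have hsub : acChi q '' adW q ⊆ acV q := by
    rw [acChi_image]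
    exact inter_subset_right
  refine ((acKap_continuousOn q).mono hsub).congr ?_
  rintro X ⟨x, hx, rfl⟩
  have hex : ∃ a ∈ adW q, acChi q a = acChi q x := ⟨x, hx, rfl⟩
  have h1 : Function.invFunOn (acChi q) (adW q) (acChi q x) ∈ adW q := Function.invFunOn_mem hex
  have h2 : acChi q (Function.invFunOn (acChi q) (adW q) (acChi q x)) = acChi q x :=
    Function.invFunOn_eq hex
  rw [acKap_acChi q hx]
  exact acChi_injOn q h1 hx h2

end Claimed.Agent.R324
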