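/-
Row 324, module G, part A, leaf Transf (architect helper427): local parametrisations and coordinate matrices under an ambient linear isometry.
PROOFS.
 * `ac_param_iso`.  `h = ⟨hU, hsm, hinj, hio, ⟨V, hV, himg⟩, hcont⟩`.
   - smooth: `Φ.toContinuousLinearEquiv.contDiff.comp_contDiffOn hsm` (or `(Φ : E →L[ℝ] E).contDiff`).
   - derivative: `ψ` is differentiable at `u ∈ U` (`(hsm.contDiffAt (hU.mem_nhds hu)).differentiableAt (by simp)`), so `fderiv ℝ (fun x => Φ (ψ x)) u = (Φ : E →L[ℝ] E).comp (fderiv ℝ ψ u)`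
     (`((Φ : E →L[ℝ] E).hasFDerivAt.comp u hd.hasFDerivAt).fderiv`); injective as a composition (`Φ.injective.comp (hinj u hu)`).
   - `InjOn`: `Φ.injective`.
   - open set: `V' = Φ.symm ⁻¹' V` (open: `hV.preimage Φ.symm.continuous`);  `(fun x => Φ (ψ x)) '' U = Φ '' (ψ '' U) = Φ '' (M ∩ V) = M ∩ V'`  (`Set.ext`; `Y = Φ X`, `X = Φ.symm Y`, `hM`).
   - continuity of the inverse: for `Y` in the image, `invFunOn (fun x => Φ (ψ x)) U Y = invFunOn ψ U (Φ.symm Y)` (both lie in `U` and have the same image under the injective-on-`U` map `ψ`: `Function.invFunOn_mem`, `Function.invFunOn_eq`);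
     then `ContinuousOn.congr` with `hcont.comp Φ.symm.continuous.continuousOn (mapsTo ..)`.
 * `ac_coordMetric_iso`.  `ext i j`; `coordMetric_ambS_apply` (Geo/Form) on both sides; `fderiv` of the composition as above, so the vectors are `Φ (fderiv ℝ ψ x e_i)`; use `hU, hV`, `formY_apply` + `hy`, and `hy (ψ x)` for the argument of `A, B, C`.
-/
import Claimed.Agent.R324.Geo.Form

set_option autoImplicit false

namespace Claimed.Agent.R324

open Set Claims.C0510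
open scoped ContDiff

theorem transf_fderiv {d N : ℕ}
    (Φ : EuclideanSpace ℝ (Fin N) ≃ₗᵢ[ℝ] EuclideanSpace ℝ (Fin N))
    {ψ : EuclideanSpace ℝ (Fin d) → EuclideanSpace ℝ (Fin N)} {u : EuclideanSpace ℝ (Fin d)}
    (hd : DifferentiableAt ℝ ψ u) (v : EuclideanSpace ℝ (Fin d)) :
    fderiv ℝ (fun x => Φ (ψ x)) u v = Φ (fderiv ℝ ψ u v) := by
  have h1 : HasFDerivAt (fun x => Φ (ψ x))
      ((Φ.toContinuousLinearEquiv : EuclideanSpace ℝ (Fin N) →L[ℝ] EuclideanSpace ℝ (Fin N)).comp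
        (fderiv ℝ ψ u)) u :=
    (Φ.toContinuousLinearEquiv : EuclideanSpace ℝ (Fin N) →L[ℝ]
      EuclideanSpace ℝ (Fin N)).hasFDerivAt.comp u hd.hasFDerivAt
  rw [h1.fderiv]
  rfl

theorem ac_param_iso {d N : ℕ} (M : Set (EuclideanSpace ℝ (Fin N)))
    (Φ : EuclideanSpace ℝ (Fin N) ≃ₗᵢ[ℝ] EuclideanSpace ℝ (Fin N)) (hM : ∀ X, Φ X ∈ M ↔ X ∈ M)
    {ψ : EuclideanSpace ℝ (Fin d) → EuclideanSpace ℝ (Fin N)} {U : Set (EuclideanSpace ℝ (Fin d))}
    (h : IsLocalParam M ψ U) : IsLocalParam M (fun x => Φ (ψ x)) U := by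
  obtain ⟨hU, hsm, hinj, hio, ⟨V, hV, himg⟩, hcont⟩ := h
  have hio' : Set.InjOn (fun x => Φ (ψ x)) U := fun a ha b hb hab => hio ha hb (Φ.injective hab)
  refine ⟨hU, ?_, ?_, hio', ⟨Φ.symm ⁻¹' V, hV.preimage Φ.symm.continuous, ?_⟩, ?_⟩
  · exact Φ.toContinuousLinearEquiv.contDiff.comp_contDiffOn hsm
  · intro u hu a b hab
    have hd : DifferentiableAt ℝ ψ u :=
      (hsm.contDiffAt (hU.mem_nhds hu)).differentiableAt (by simp)
    rw [transf_fderiv Φ hd, transf_fderiv Φ hd] at hab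
    exact hinj u hu (Φ.injective hab)
  · ext Y
    constructor
    · rintro ⟨x, hx, rfl⟩
      have h1 : ψ x ∈ M ∩ V := himg ▸ Set.mem_image_of_mem ψ hx
      exact ⟨(hM _).2 h1.1, by simpa using h1.2⟩
    · rintro ⟨hY1, hY2⟩
      have h1 : Φ.symm Y ∈ M ∩ V := by
        refine ⟨?_, hY2⟩
        rw [← hM]
        simpa using hY1
      rw [← himg] at h1
      obtain ⟨x, hx, hxe⟩ := h1
      exact ⟨x, hx, by simp [hxe]⟩
  · have hmaps : Set.MapsTo Φ.symm ((fun x => Φ (ψ x)) '' U) (ψ '' U) := by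
      rintro _ ⟨x, hx, rfl⟩
      exact ⟨x, hx, by simp⟩
    refine (hcont.comp Φ.symm.continuous.continuousOn hmaps).congr ?_
    rintro _ ⟨x, hx, rfl⟩
    have hex : ∃ a ∈ U, (fun x => Φ (ψ x)) a = Φ (ψ x) := ⟨x, hx, rfl⟩
    have hex2 : ∃ a ∈ U, ψ a = ψ x := ⟨x, hx, rfl⟩
    have e1 : Function.invFunOn (fun x => Φ (ψ x)) U (Φ (ψ x)) = x :=
      hio' (Function.invFunOn_mem hex) hx (Function.invFunOn_eq hex)
    have e2 : Function.invFunOn ψ U (ψ x) = x :=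
      hio (Function.invFunOn_mem hex2) hx (Function.invFunOn_eq hex2)
    simp only [Function.comp_apply, LinearIsometryEquiv.symm_apply_apply]
    rw [e1, e2]

theorem ac_coordMetric_iso (q : ℕ) (A B C : ℝ → ℝ) (Φ : EN q ≃ₗᵢ[ℝ] EN q)
    (hy : ∀ X, Φ X (iy q) = X (iy q)) (hU : ∀ ξ η, formU q (Φ ξ) (Φ η) = formU q ξ η)
    (hV : ∀ ξ η, formV q (Φ ξ) (Φ η) = formV q ξ η) {ψ : Ed q → EN q} {x : Ed q}
    (hψ : DifferentiableAt ℝ ψ x) :
    coordMetric (ambS q A B C) (fun x => Φ (ψ x)) x = coordMetric (ambS q A B C) ψ x := by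
  ext i j
  rw [coordMetric_ambS_apply, coordMetric_ambS_apply, transf_fderiv Φ hψ, transf_fderiv Φ hψ,
    hU, hV, formY_apply, formY_apply, hy, hy, hy]

end Claimed.Agent.R324
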