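/-
Row 324, module G, part A (helper427): assembly of (C1), the adapted chart around a non-polar point.
-/
import Claimed.Agent.R324.Geo.A.Param0
import Claimed.Agent.R324.Geo.A.Iso
import Claimed.Agent.R324.Geo.A.Transf

set_option autoImplicit false

namespace Claimed.Agent.R324

open Set Claims.C0510
open scoped ContDiff

theorem ac_adapted_chart (q : ℕ) (p : EN q) (hp : p ∈ spherePairProd q)
    (hy : p (iy q) ∈ Ioo (-1 : ℝ) 1) :
    ∃ χ : Ed q → EN q, IsLocalParam (spherePairProd q) χ (adW q) ∧ χ (adC q (p (iy q))) = p ∧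
      ∀ (A B C : ℝ → ℝ), ∀ x ∈ adW q, coordMetric (ambS q A B C) χ x = adG q A B C x := by
  obtain ⟨Φ, hb, hh, hU, hV⟩ := ac_iso_exists q p hp hy
  refine ⟨fun x => Φ (acChi q x), ?_, ?_, ?_⟩
  · exact ac_param_iso _ Φ (ac_iso_mem q Φ hU hV) (acChi_isLocalParam q)
  · show Φ (acChi q (adC q (p (iy q)))) = p
    rw [acChi_centre, hb]
  · intro A B C x hx
    rw [ac_coordMetric_iso q A B C Φ hh hU hV (acChi_differentiableAt q hx), ac_coordMetric q A B C hx]

end Claimed.Agent.R324
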